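import Vale.Agent.P277.H619.StD
import Vale.Agent.P277.H73.C

/-!
# P277, package D: differentials and generic choices
-/

open scoped Manifold ContDiff Topology
open Vale.Agent.P272.K Vale.Agent.P285.H281.FD Set Filter

noncomputable section

namespace Vale.Agent.P277.H619

open Vale.Agent.P277

variable {Y : Type} [TopologicalSpace Y] [ChartedSpace (Cm 4) Y] {X Z : CSp} {O : Set Y}
  {v : Y → X.pt} {y : Y} {e : Chart 4 Y}

theorem dfr_diff (hv : IsOpenEmb X O v) (hy : y ∈ O) (he : At e y) {h : X.pt → ℂ}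
    (hh : X.Hol h (v y)) : DifferentiableAt ℂ (fun z => h (v (e.symm z))) (e y) :=
  ((hv.hol_iff hy he).1 hh).differentiableAt

theorem dfr_mul (hv : IsOpenEmb X O v) (hy : y ∈ O) (he : At e y) {g h : X.pt → ℂ}
    (hg : X.Hol g (v y)) (hh : X.Hol h (v y)) :
    dfr v e y (fun x => g x * h x) = g (v y) • dfr v e y h + h (v y) • dfr v e y g := by
  have h1 := fderiv_fun_mul (dfr_diff hv hy he hg) (dfr_diff hv hy he hh)
  rw [e.left_inv he.2] at h1
  exact h1

theorem dfr_sum (hv : IsOpenEmb X O v) (hy : y ∈ O) (he : At e y) {M : ℕ} (w : Fin M → ℂ)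
    {u : Fin M → X.pt → ℂ} (hu : ∀ m, X.Hol (u m) (v y)) :
    dfr v e y (fun x => ∑ m, w m * u m x) = ∑ m, w m • dfr v e y (u m) := by
  unfold dfr
  rw [fderiv_fun_sum fun m _ => (dfr_diff hv hy he (hu m)).const_mul (w m)]
  refine Finset.sum_congr rfl fun m _ => ?_
  rw [fderiv_const_mul (dfr_diff hv hy he (hu m))]

omit [ChartedSpace (Cm 4) Y] in
theorem dfr_sub_const {h : X.pt → ℂ} (c : ℂ) :
    dfr v e y (fun x => h x - c) = dfr v e y h := by
  unfold dfr
  rw [fderiv_sub_const]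

theorem eq_sum_proj (T : Cm 4 →L[ℂ] ℂ) :
    T = ∑ a, T (Pi.single a 1) • ContinuousLinearMap.proj (R := ℂ) (φ := fun _ : Fin 4 => ℂ) a := by
  ext z
  simp only [sum_apply, smul_apply,
    ContinuousLinearMap.proj_apply, smul_eq_mul]
  conv_lhs => rw [show z = ∑ a, z a • (Pi.single a (1 : ℂ) : Cm 4) by
    funext b; simp [Finset.sum_apply, Pi.single_apply]]
  rw [map_sum]
  refine Finset.sum_congr rfl fun a _ => ?_
  rw [map_smul, smul_eq_mul, mul_comm]

/-- the differentials of local coordinates of `Z` span at the points over `Z \ A` -/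
theorem coord_span (hv : IsOpenEmb X O v) {f : X.pt → Z.pt} {A : Set Z.pt}
    (sm : IsSmall X Z f A) {V : Set Z.pt} {N : ℕ} {ψ : Fin N → Z.pt → ℂ} (hψ : IsCoord Z V ψ)
    (hy : y ∈ O) (he : At e y) (hV : f (v y) ∈ V) (hA : f (v y) ∉ A) :
    Submodule.span ℂ (range fun b => dfr v e y (fun x => ψ b (f x))) = ⊤ := by
  rw [eq_top_iff]
  rintro T -
  rw [eq_sum_proj T]
  refine Submodule.sum_mem _ fun a _ => Submodule.smul_mem _ _ ?_
  have h1 : X.Hol (fun x => e (hv.inv y x) a) (v y) := hv.hol_chart y hy he a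
  obtain ⟨h, hh, hh'⟩ := sm.iso (v y) _ hA h1
  obtain ⟨G, hG, hG'⟩ := (hψ.iff _ hV h).1 hh
  have hc : ContinuousAt (fun z => v (e.symm z)) (e y) := (hv.holAt hy he).1
  have hvy : v (e.symm (e y)) = v y := by rw [e.left_inv he.2]
  have h2 : ∀ᶠ z in 𝓝 (e y), e.symm z ∈ O ∧ z ∈ e.target := by
    have h3 : ContinuousAt e.symm (e y) := e.continuousAt_symm (e.map_source he.2)
    refine (h3.eventually_mem ?_).and (e.open_target.mem_nhds (e.map_source he.2))
    rw [e.left_inv he.2]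
    exact hv.isOpen.mem_nhds hy
  have h3 : (fun z : Cm 4 => z a) =ᶠ[𝓝 (e y)] fun z => G fun b => ψ b (f (v (e.symm z))) := by
    have h4 : ∀ᶠ x in 𝓝 (v y), e (hv.inv y x) a = G fun b => ψ b (f x) := by
      filter_upwards [hh', sm.cont.continuousAt.eventually hG'] with x h5 h6
      rw [h5]
      exact h6
    have h5 : Tendsto (fun z => v (e.symm z)) (𝓝 (e y)) (𝓝 (v y)) := by
      have h6 : Tendsto (fun z => v (e.symm z)) (𝓝 (e y)) (𝓝 (v (e.symm (e y)))) := hc
      rwa [hvy] at h6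
    filter_upwards [h5.eventually h4, h2] with z h6 h7
    rw [← h6, hv.inv_apply y h7.1, e.right_inv h7.2]
  have h4 : ∀ b, HasFDerivAt (fun z => ψ b (f (v (e.symm z)))) (dfr v e y fun x => ψ b (f x)) (e y) :=
    fun b => (dfr_diff hv hy he (h := fun x => ψ b (f x))
      (sm.holo _ _ (hψ.hol b _ hV))).hasFDerivAt
  have h5 : HasFDerivAt (fun z b => ψ b (f (v (e.symm z))))
      (ContinuousLinearMap.pi fun b => dfr v e y fun x => ψ b (f x)) (e y) :=
    hasFDerivAt_pi'.2 h4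
  have h6 : HasFDerivAt G (fderiv ℂ G fun b => ψ b (f (v y))) (fun b => ψ b (f (v (e.symm (e y)))))
      := by
    rw [e.left_inv he.2]
    exact hG.differentiableAt.hasFDerivAt
  have h7 := h6.comp (e y) h5
  have h8 : HasFDerivAt (fun z : Cm 4 => z a)
      (ContinuousLinearMap.proj (R := ℂ) (φ := fun _ : Fin 4 => ℂ) a) (e y) :=
    (ContinuousLinearMap.proj (R := ℂ) (φ := fun _ : Fin 4 => ℂ) a).hasFDerivAt
  have h9 := h8.unique (h7.congr_of_eventuallyEq h3)
  rw [h9]
  set T' := fderiv ℂ G fun b => ψ b (f (v y)) with hT'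
  have h10 : T'.comp (ContinuousLinearMap.pi fun b => dfr v e y fun x => ψ b (f x)) =
      ∑ b, T' (Pi.single b 1) • dfr v e y fun x => ψ b (f x) := by
    ext z
    simp only [ContinuousLinearMap.comp_apply, sum_apply,
      smul_apply, smul_eq_mul]
    conv_lhs => rw [show (ContinuousLinearMap.pi fun b => dfr v e y fun x => ψ b (f x)) z =
      ∑ b, (dfr v e y (fun x => ψ b (f x))) z • (Pi.single b (1 : ℂ) : Cm N) by
        funext b; simp [Finset.sum_apply, Pi.single_apply]]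
    rw [map_sum]
    refine Finset.sum_congr rfl fun b _ => ?_
    rw [map_smul, smul_eq_mul, mul_comm]
  rw [h10]
  exact Submodule.sum_mem _ fun b _ => Submodule.smul_mem _ _ (Submodule.subset_span ⟨b, rfl⟩)

/-! ### avoiding subspaces -/

theorem avoid {M : ℕ} {ι : Type} [Countable ι] (H : ι → Submodule ℂ (Fin M → ℂ))
    (hH : ∀ i, H i ≠ ⊤) : ∃ w, ∀ i, w ∉ H i := by
  rcases isEmpty_or_nonempty ι with h | h
  · exact ⟨0, fun i => (h.false i).elim⟩
  · obtain ⟨g, hg⟩ := exists_surjective_nat ι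
    obtain ⟨w, hw⟩ := H73.stC2 M (fun n => H (g n)) (fun n => hH _)
    refine ⟨w, fun i => ?_⟩
    obtain ⟨n, rfl⟩ := hg i
    exact hw n

theorem avoid₂ {M : ℕ} {ι ι' : Type} [Countable ι] [Countable ι']
    (H : ι → Submodule ℂ (Fin M → ℂ)) (H' : ι' → Submodule ℂ (Fin M → ℂ))
    (hH : ∀ i, H i ≠ ⊤) (hH' : ∀ i, H' i ≠ ⊤) : ∃ w, (∀ i, w ∉ H i) ∧ ∀ i, w ∉ H' i := by
  obtain ⟨w, hw⟩ := avoid (ι := ι ⊕ ι') (Sum.elim H H') (by
    rintro (i | i)
    · exact hH i
    · exact hH' i)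
  exact ⟨w, fun i => hw (Sum.inl i), fun i => hw (Sum.inr i)⟩

/-- a spanning family defines a surjective linear map -/
theorem comap_ne_top {M : ℕ} {E : Type*} [AddCommGroup E] [Module ℂ E] {a : Fin M → E}
    (ha : Submodule.span ℂ (range a) = ⊤) {R : Submodule ℂ E} (hR : R ≠ ⊤) :
    R.comap (Fintype.linearCombination ℂ a) ≠ ⊤ := by
  intro h
  have hs : Function.Surjective (Fintype.linearCombination ℂ a) := by
    rw [← LinearMap.range_eq_top, Fintype.range_linearCombination, ha]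
  refine hR (eq_top_iff.2 fun z _ => ?_)
  obtain ⟨w, rfl⟩ := hs z
  have : w ∈ R.comap (Fintype.linearCombination ℂ a) := by rw [h]; trivial
  exact this

end Vale.Agent.P277.H619
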