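import Vale.Agent.P277.H619.D2

/-!
# P277, package D: the minimal choice of the set `A` (StD0)
-/

open scoped Manifold ContDiff Topology
open Vale.Agent.P272.K Vale.Agent.P285.H281.FD Set Filter

noncomputable section

namespace Vale.Agent.P277.H619

open Vale.Agent.P277

variable {X Z X' : CSp} {f : X.pt → Z.pt} {f' : X'.pt → Z.pt} {A : Set Z.pt} {L : Bd X.pt}
  {L' : Bd X'.pt} {t : L.ι → L'.ι → Z.pt → ℂ}

/-- separating families on the two sides with the same exponent -/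
theorem exists_VA (ha : RelAmple X Z f (Bd.inv L)) (ha' : RelAmple X' Z f' L') (z : Z.pt) :
    ∃ (V : Set Z.pt) (k N N' : ℕ) (s : Fin (N + 1) × Fin (N + 1) → L.ι → X.pt → ℂ)
      (σ : Fin (N' + 1) × Fin (N' + 1) → L'.ι → X'.pt → ℂ), IsOpen V ∧ z ∈ V ∧ 1 ≤ k ∧
      VA X Z f V ((Bd.inv L).pow k) s ∧ VA X' Z f' V (L'.pow k) σ := by
  obtain ⟨V₁, k₁, N, s, hV₁, hz₁, hk₁, h1, h2, h3, -⟩ := ha z
  obtain ⟨V₂, k₂, N', σ, hV₂, hz₂, hk₂, h4, h5, h6, -⟩ := ha' z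
  have H1 : VA X Z f V₁ ((Bd.inv L).pow k₁) s := ⟨h1, h2, h3⟩
  have H2 : VA X' Z f' V₂ (L'.pow k₂) σ := ⟨h4, h5, h6⟩
  have H3 := (H2.mono (V' := V₁ ∩ V₂) inter_subset_right).pow hk₁
  have H4 := (H1.mono (V' := V₁ ∩ V₂) inter_subset_left).pow hk₂
  rw [mul_comm k₂ k₁] at H3
  exact ⟨V₁ ∩ V₂, k₁ * k₂, N, N', _, _, hV₁.inter hV₂, ⟨hz₁, hz₂⟩, Nat.mul_pos hk₁ hk₂, H4, H3⟩

theorem amin_eq (H : Pr X Z X' f f' A L L' t) (ha : RelAmple X Z f (Bd.inv L))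
    (ha' : RelAmple X' Z f' L') : Amin f = Amin f' := by
  ext z
  obtain ⟨V, k, N, N', s, σ, hV, hz, -, hs, hσ⟩ := exists_VA ha ha' z
  exact amin_iff H hV hs hσ hz

theorem single_of_not_amin {z : Z.pt} (h : z ∉ Amin f) {x x₁ : X.pt} (hx : f x = z)
    (hx₁ : f x₁ = z) : x = x₁ := by
  by_contra hne
  exact h ⟨x, x₁, hx, hx₁, hne⟩

/-- Local equations of `Amin f`: the products of the sections of `L^k` and `L^{-k}`. -/
theorem amin_equations (H : Pr X Z X' f f' A L L' t) {V : Set Z.pt} (hV : IsOpen V) {k : ℕ}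
    {κ κ' : Type} {s : κ → L.ι → X.pt → ℂ} (hs : VA X Z f V ((Bd.inv L).pow k) s)
    {σ : κ' → L'.ι → X'.pt → ℂ} (hσ : VA X' Z f' V (L'.pow k) σ) :
    ∃ (τ : κ' → L.ι → X.pt → ℂ) (g : κ' → κ → Z.pt → ℂ),
      (∀ l, IsSecx X (f ⁻¹' V) (L.pow k) (τ l)) ∧
      (∀ l x x' i j, f x ∈ V → f x ∉ A → f' x' = f x → x ∈ L.U i → x' ∈ L'.U j →
        τ l i x * t i j (f x) ^ k = σ l j x') ∧
      (∀ l m, ∀ z ∈ V, Z.Hol (g l m) z) ∧
      (∀ l m x i, f x ∈ V → x ∈ L.U i → τ l i x * s m i x = g l m (f x)) ∧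
      (∀ z ∈ V, z ∈ Amin f ↔ ∀ l m, g l m z = 0) ∧
      (∀ l x x' i j, f x ∈ V → f x ∉ Amin f → f' x' = f x → x ∈ L.U i → x' ∈ L'.U j →
        σ l j x' ≠ 0 → τ l i x ≠ 0) := by
  choose τ hτ hc using fun l => transport H hV k (hσ.sec l)
  choose g hg hg' using fun l m => pair_push H.nX H.nZ H.sm H.lb hV (hτ l) (hs.sec m)
  have hnz : ∀ l x x' i j, f x ∈ V → f x ∉ Amin f → f' x' = f x → x ∈ L.U i → x' ∈ L'.U j →
      σ l j x' ≠ 0 → τ l i x ≠ 0 := by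
    intro l x x' i j hx hxA hx' hi hj h0
    refine transport_nz H hV (hσ.sec l) (hτ l) (hc l) hx ?_ rfl hi
    intro y hy j' hj' h1
    have hxA' : f x ∉ Amin f' := fun h => hxA ((amin_iff H hV hs hσ hx).2 h)
    have e : y = x' := single_of_not_amin hxA' hy hx'
    subst e
    have h2 : σ l j y = L'.g j j' y ^ k * σ l j' y :=
      (hσ.sec l).change j j' y (by rw [mem_preimage, hx']; exact hx) hj hj'
    rw [h1, mul_zero] at h2
    exact h0 h2
  refine ⟨τ, g, hτ, hc, hg, hg', ?_, hnz⟩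
  intro z hz
  constructor
  · rintro ⟨x, x₁, hx, hx₁, hne⟩ l m
    obtain ⟨i, hi⟩ := H.lb.cover x
    have h1 := vanish H.nX H.nZ H.sm H.lb hV hs (hτ l) (x := x) (x₁ := x₁)
      (by rw [hx]; exact hz) (hx₁.trans hx.symm) (Ne.symm hne) hi
    have h2 := hg' l m x i (by rw [hx]; exact hz) hi
    rw [h1, zero_mul, hx] at h2
    exact h2.symm
  · intro h0
    by_contra hzA
    obtain ⟨x, hx⟩ := H.sm.surj z
    obtain ⟨x', hx'⟩ := H.sm'.surj z
    obtain ⟨i, hi⟩ := H.lb.cover x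
    obtain ⟨j, hj⟩ := H.lb'.cover x'
    obtain ⟨l, hl⟩ := hσ.gen x' j (by rw [hx']; exact hz) hj
    obtain ⟨m, hm⟩ := hs.gen x i (by rw [hx]; exact hz) hi
    have h1 := hnz l x x' i j (by rw [hx]; exact hz) (by rw [hx]; exact hzA) (hx'.trans hx.symm)
      hi hj hl
    have h2 := hg' l m x i (by rw [hx]; exact hz) hi
    rw [hx, h0 l m] at h2
    exact mul_ne_zero h1 hm h2

theorem isAn_amin (H : Pr X Z X' f f' A L L' t) (ha : RelAmple X Z f (Bd.inv L))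
    (ha' : RelAmple X' Z f' L') : IsAn Z univ (Amin f) := by
  intro z _
  obtain ⟨V, k, N, N', s, σ, hV, hz, -, hs, hσ⟩ := exists_VA ha ha' z
  obtain ⟨τ, g, -, -, hg, -, hA, -⟩ := amin_equations H hV hs hσ
  let e := Fintype.equivFin ((Fin (N' + 1) × Fin (N' + 1)) × (Fin (N + 1) × Fin (N + 1)))
  refine ⟨_, fun a => g (e.symm a).1 (e.symm a).2, fun a => hg _ _ z hz, ?_⟩
  filter_upwards [hV.mem_nhds hz] with y hy
  rw [hA y hy]
  constructor
  · intro h a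
    exact h _ _
  · intro h l m
    have := h (e (l, m))
    simpa using this

theorem small_amin (nX : IsNormal 4 X) (nZ : IsNormal 4 Z) (sm : IsSmall X Z f A)
    (hA : IsAn Z univ (Amin f)) : IsSmall X Z f (Amin f) where
  cont := sm.cont
  holo := sm.holo
  surj := sm.surj
  an := hA
  dim := sm.dim.mono (preimage_mono (amin_subset sm))
  inj x x' hx hx' := single_of_not_amin hx hx' rfl
  iso x g hx hg := by
    have h1 := hol_eventually hg
    obtain ⟨U, hU, hUo, hxU⟩ := eventually_nhds_iff.1 h1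
    obtain ⟨V₁, hV₁, hzV₁, hsub⟩ := exists_nhds_preimage_subset sm.cont (z := f x) hUo (by
      intro y hy
      rw [single_of_not_amin hx hy rfl]
      exact hxU)
    obtain ⟨h, hh, hh'⟩ := push nX nZ sm hV₁ (h := g) fun y hy => hU y (hsub hy)
    refine ⟨h, hh _ hzV₁, ?_⟩
    filter_upwards [sm.cont.continuousAt.eventually_mem (hV₁.mem_nhds hzV₁)] with y hy
    exact hh' y hy

/-- (D0) -/
theorem stD0 : StD0 := by
  intro X Z X' f f' A L L' F
  obtain ⟨t, H⟩ := Pr.of_flip F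
  have e := amin_eq H F.ample F.ample'
  have hAn := isAn_amin H F.ample F.ample'
  have s1 := small_amin H.nX H.nZ H.sm hAn
  have s2 : IsSmall X' Z f' (Amin f) := by
    have := small_amin H.nX' H.nZ H.sm' (e ▸ hAn)
    rw [← e] at this
    exact this
  refine ⟨⟨F.normal, F.normalZ, F.normal', s1, s2, F.ninj, F.ninj', F.lb, F.lb', ?_, F.ample,
    F.ample'⟩, e, amin_subset H.sm⟩
  -- extension of the isomorphism
  have hD : Dense Aᶜ := dense_compl_of_dimLe (by norm_num) H.nZ.dense (dimLe_A H.sm)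
  let D : L.ι → L'.ι → Set Z.pt := fun i j =>
    {z | z ∉ Amin f ∧ s1.sec z ∈ L.U i ∧ s2.sec z ∈ L'.U j}
  have hDo : ∀ i j, IsOpen (D i j) := by
    intro i j
    rw [isOpen_iff_eventually]
    rintro z ⟨h1, h2, h3⟩
    filter_upwards [s1.isClosed.isOpen_compl.eventually_mem h1,
      (s1.holMap_sec h1).1.eventually_mem ((H.lb.isOpen i).mem_nhds h2),
      (s2.holMap_sec h1).1.eventually_mem ((H.lb'.isOpen j).mem_nhds h3)] with y h4 h5 h6
    exact ⟨h4, h5, h6⟩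
  have hmem : ∀ x x' i j, f x ∉ Amin f → f' x' = f x → x ∈ L.U i → x' ∈ L'.U j →
      f x ∈ D i j := by
    intro x x' i j hx hx' hi hj
    refine ⟨hx, ?_, ?_⟩
    · rw [s1.sec_apply hx]; exact hi
    · rw [← hx', s2.sec_apply (by rw [hx']; exact hx)]; exact hj
  have ho : ∀ i j, ∀ z ∈ D i j, z ∉ A → Z.Hol (t i j) z ∧ t i j z ≠ 0 := by
    rintro i j z ⟨h1, h2, h3⟩ hzA
    have h4 := H.iso.holo (s1.sec z) (s2.sec z) i j (by rw [s1.sec_eq]; exact hzA)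
      (by rw [s1.sec_eq, s2.sec_eq]) h2 h3
    rw [s1.sec_eq] at h4
    exact h4
  have hext : ∀ i j, ∃ t₁ : Z.pt → ℂ, (∀ z ∈ D i j, Z.Hol t₁ z ∧ t₁ z ≠ 0) ∧
      ∀ z ∈ D i j, z ∉ A → t₁ z = t i j z := by
    intro i j
    obtain ⟨t₁, h1, h2⟩ := H.nZ.ext (D i j) A (hDo i j) (H.sm.an.mono (subset_univ _))
      ((dimLe_A H.sm).mono inter_subset_right) (t i j) (fun z hz => (ho i j z hz.1 hz.2).1)
    obtain ⟨t₂, h3, h4⟩ := H.nZ.ext (D i j) A (hDo i j) (H.sm.an.mono (subset_univ _))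
      ((dimLe_A H.sm).mono inter_subset_right) (fun z => (t i j z)⁻¹)
      (fun z hz => hol_inv (ho i j z hz.1 hz.2).1 (ho i j z hz.1 hz.2).2)
    refine ⟨t₁, fun z hz => ⟨h1 z hz, ?_⟩, fun z hz hzA => h2 z ⟨hz, hzA⟩⟩
    have h5 : (fun y => t₁ y * t₂ y) =ᶠ[𝓝 z] fun _ => 1 := by
      refine eventuallyEq_of_dense hD (hol_mul (h1 z hz) (h3 z hz)) (hol_const 1 z) ?_
      filter_upwards [(hDo i j).eventually_mem hz] with y hy hyA
      rw [h2 y ⟨hy, hyA⟩, h4 y ⟨hy, hyA⟩]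
      exact mul_inv_cancel₀ (ho i j y hy hyA).2
    intro h0
    have h6 := h5.self_of_nhds
    simp only [h0, zero_mul] at h6
    exact zero_ne_one h6
  choose t₁ ht₁ ht₁' using hext
  refine ⟨t₁, ⟨fun x x' i j hx hx' hi hj => ht₁ i j _ (hmem x x' i j hx hx' hi hj), ?_⟩⟩
  intro x x' i i₁ j j₁ hx hx' hi hi₁ hj hj₁
  set z := f x with hz
  have ex : s1.sec z = x := s1.sec_apply hx
  have ex' : s2.sec z = x' := by rw [← hx']; exact s2.sec_apply (by rw [hx']; exact hx)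
  have hm := hmem x x' i j hx hx' hi hj
  have hm₁ := hmem x x' i₁ j₁ hx hx' hi₁ hj₁
  have h1 : t₁ i₁ j₁ =ᶠ[𝓝 z] fun y => L.g i i₁ (s1.sec y) * t₁ i j y * L'.g j₁ j (s2.sec y) := by
    refine eventuallyEq_of_dense hD (ht₁ i₁ j₁ z hm₁).1 ?_ ?_
    · refine hol_mul (hol_mul ?_ (ht₁ i j z hm).1) ?_
      · exact (s1.holMap_sec hx).2 (L.g i i₁) (by rw [ex]; exact H.lb.holo i i₁ x hi hi₁)
      · exact (s2.holMap_sec hx).2 (L'.g j₁ j) (by rw [ex']; exact H.lb'.holo j₁ j x' hj₁ hj)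
    · filter_upwards [(hDo i j).eventually_mem hm, (hDo i₁ j₁).eventually_mem hm₁] with y hy hy₁ hyA
      rw [ht₁' i j y hy hyA, ht₁' i₁ j₁ y hy₁ hyA]
      have h2 := H.iso.change (s1.sec y) (s2.sec y) i i₁ j j₁ (by rw [s1.sec_eq]; exact hyA)
        (by rw [s1.sec_eq, s2.sec_eq]) hy.2.1 hy₁.2.1 hy.2.2 hy₁.2.2
      rw [s1.sec_eq] at h2
      exact h2
  have h2 := h1.self_of_nhds
  simp only [ex, ex'] at h2
  exact h2

end Vale.Agent.P277.H619
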