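import Vale.Agent.P277.H619.Pair

/-!
# P277: properties of the pairing of forms
-/

set_option maxSynthPendingDepth 3

open scoped ContDiff Topology Manifold
open ContinuousAlternatingMap Vale.Agent.P267.H928.Int Vale.Agent.P267.H175
open Vale.Agent.P272.K Vale.Agent.P277.H60 MeasureTheory

noncomputable section

namespace Vale.Agent.P277.H619

open Vale.Agent.P277

section

variable {M : Type} [TopologicalSpace M] [T2Space M] [SecondCountableTopology M]
    [ChartedSpace (Cm 4) M] [IsManifold 𝓘(ℂ, Cm 4) ω M]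

/-- the `8`-form `a` as a density -/
abbrev dn (a : Fm 8 M) : OpenPartialHomeomorph M (Cm 4) → Cm 4 → ℝ :=
  fun e z => cf stdB e (show Form (Cm 4) ℝ 8 M from a) z

omit [T2Space M] [SecondCountableTopology M] in
theorem contForm_of_sm {k : ℕ} {a : Fm k M} (ha : ∀ y, SmAt a y) :
    ContForm (show Form (Cm 4) ℝ k M from a) := (cForm_of_sm ha).contForm

theorem intM_add {a b : Fm 8 M} (ha : ∀ y, SmAt a y) (hb : ∀ y, SmAt b y) {K : Set M}
    (hK : IsCompact K) (ha0 : ∀ y ∉ K, a y = 0) (hb0 : ∀ y ∉ K, b y = 0) :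
    intM M (a + b) = intM M a + intM M b := by
  letI : MeasurableSpace M := borel M
  haveI : BorelSpace M := ⟨rfl⟩
  haveI : LocallyCompactSpace M := ChartedSpace.locallyCompactSpace (Cm 4) M
  set P : Pou (Cm 4) M := (exists_pou (E := Cm 4) (M := M)).some with hP
  have e1 : dn (a + b) = dn a + dn b := by
    funext e z
    show cf stdB e _ z = _
    simp only [cf, Pi.add_apply]
    have := pull_add e.symm (show Form (Cm 4) ℝ 8 M from a) (show Form (Cm 4) ℝ 8 M from b) z
    have h2 := congrArg (fun f : Cm 4 [⋀^Fin 8]→L[ℝ] ℝ => f stdB) this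
    exact h2
  have h1 : ∀ {c : Fm 8 M}, (∀ y, SmAt c y) → (∀ y ∉ K, c y = 0) →
      Integrable (P.quo (dn c)) (P.meas volume) := by
    intro c hc hc0
    have hs : SuppIn K (show Form (Cm 4) ℝ 8 M from c) := hc0
    exact P.integrable_quo volume (isDens_cf stdB _) ((contForm_of_sm hc).dcont stdB) hK
      (hs.dsupp stdB)
  show P.integ volume (dn (a + b)) = P.integ volume (dn a) + P.integ volume (dn b)
  rw [e1]
  exact P.integ_add volume (h1 ha ha0) (h1 hb hb0)

theorem intM_smul (c : ℝ) (a : Fm 8 M) : intM M (c • a) = c * intM M a := by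
  letI : MeasurableSpace M := borel M
  haveI : BorelSpace M := ⟨rfl⟩
  haveI : LocallyCompactSpace M := ChartedSpace.locallyCompactSpace (Cm 4) M
  set P : Pou (Cm 4) M := (exists_pou (E := Cm 4) (M := M)).some with hP
  have e1 : dn (c • a) = c • dn a := rfl
  show P.integ volume (dn (c • a)) = c * P.integ volume (dn a)
  rw [e1, P.integ_smul volume]; rfl

theorem intM_stokes {β : Fm 7 M} {a : Fm 8 M} (hβ : ∀ y, SmAt β y)
    (h : IsExt (show Form (Cm 4) ℝ 7 M from β) (show Form (Cm 4) ℝ 8 M from a)) {K : Set M}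
    (hK : IsCompact K) (hs : ∀ y ∉ K, β y = 0) : intM M a = 0 := by
  letI : MeasurableSpace M := borel M
  haveI : BorelSpace M := ⟨rfl⟩
  haveI : LocallyCompactSpace M := ChartedSpace.locallyCompactSpace (Cm 4) M
  exact stokes volume _ stdB (cForm_of_sm hβ) h hK hs

end

/-! ### the product of `4`-forms as an `8`-form

The lemmas are stated for general normed spaces, and for general forms `g`, so that the kernel never has
to compare products of forms under different instances. -/

section gen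

variable {E : Type} [NormedAddCommGroup E] [NormedSpace ℝ E]

/-- scalar multiplication of forms -/
def fsm {k : ℕ} (c : ℝ) (x : E [⋀^Fin k]→L[ℝ] ℝ) : E [⋀^Fin k]→L[ℝ] ℝ := c • x

/-- addition of forms -/
def fad {k : ℕ} (x x' : E [⋀^Fin k]→L[ℝ] ℝ) : E [⋀^Fin k]→L[ℝ] ℝ := x + x'

theorem wdg_fsm {p q : ℕ} (c : ℝ) (a : E [⋀^Fin p]→L[ℝ] ℝ) (b : E [⋀^Fin q]→L[ℝ] ℝ) :
    wdg (fsm c a) b = fsm c (wdg a b) := wdg_smul_left c a b

theorem wdg_fad {p q : ℕ} (a a' : E [⋀^Fin p]→L[ℝ] ℝ) (b : E [⋀^Fin q]→L[ℝ] ℝ) :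
    wdg (fad a a') b = fad (wdg a b) (wdg a' b) := wdg_add_left a a' b

end gen

section

variable {M : Type} [TopologicalSpace M] [ChartedSpace (Cm 4) M]

theorem fm_fsm {k : ℕ} (c : ℝ) (g : Fm k M) (y : M) : (c • g) y = fsm c (g y) := rfl

theorem fm_fad {k : ℕ} (g g' : Fm k M) (y : M) : (g + g') y = fad (g y) (g' y) := rfl

/-- the product of `4`-forms -/
def wd44 (a b : Fm 4 M) : Fm 8 M := fun y => wdg (a y) (b y)

theorem wd44_smul (c : ℝ) (a b : Fm 4 M) : wd44 (c • a) b = c • wd44 a b := by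
  funext y
  have h1 : wd44 (c • a) b y = wdg (fsm c (a y)) (b y) :=
    congrArg (fun t => wdg t (b y)) (fm_fsm c a y)
  have h2 : wdg (fsm c (a y)) (b y) = fsm c (wd44 a b y) := wdg_fsm c (a y) (b y)
  exact (h1.trans h2).trans (fm_fsm c (wd44 a b) y).symm

theorem wd44_add (a a' b : Fm 4 M) : wd44 (a + a') b = wd44 a b + wd44 a' b := by
  funext y
  have h1 : wd44 (a + a') b y = wdg (fad (a y) (a' y)) (b y) :=
    congrArg (fun t => wdg t (b y)) (fm_fad a a' y)
  have h2 : wdg (fad (a y) (a' y)) (b y) = fad (wd44 a b y) (wd44 a' b y) :=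
    wdg_fad (a y) (a' y) (b y)
  exact (h1.trans h2).trans (fm_fad (wd44 a b) (wd44 a' b) y).symm

theorem wd44_zero {a b : Fm 4 M} {y : M} (h : b y = 0) : wd44 a b y = 0 := by
  show wdg (a y) (b y) = 0
  rw [h, wdg_zero_right]

variable [T2Space M] [SecondCountableTopology M] [IsManifold 𝓘(ℂ, Cm 4) ω M]

theorem pr_wd44 (a b : Fm 4 M) : pr M a b = intM M (wd44 a b) := rfl

omit [T2Space M] [SecondCountableTopology M] in
theorem smAt_wd44 {a b : Fm 4 M} {y : M} (ha : SmAt a y) (hb : SmAt b y) : SmAt (wd44 a b) y :=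
  smAt_wdg ha hb

theorem pr_add' (a a' b : Fm 4 M) (C : Set M) (hC : IsCompact C)
    (hs : ∀ y, SmAt a y ∧ SmAt a' y ∧ SmAt b y) (hb : ∀ y ∉ C, b y = 0) :
    pr M (a + a') b = pr M a b + pr M a' b := by
  rw [pr_wd44, pr_wd44, pr_wd44, wd44_add]
  exact intM_add (fun y => smAt_wd44 (hs y).1 (hs y).2.2) (fun y => smAt_wd44 (hs y).2.1 (hs y).2.2)
    hC (fun y hy => wd44_zero (hb y hy)) fun y hy => wd44_zero (hb y hy)

theorem pr_smul' (c : ℝ) (a b : Fm 4 M) : pr M (c • a) b = c * pr M a b := by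
  rw [pr_wd44, pr_wd44, wd44_smul, intM_smul]

end

theorem stPair : StPair := by
  intro M _ _ _ _ _
  refine ⟨pr_add', pr_smul', ?_, ?_, ?_⟩
  · intro a b
    rw [pr, pr]
    congr 1
    funext y
    exact wdg_comm4 _ _
  · intro a a' b h
    rw [pr, pr]
    congr 1
    funext y
    rcases h y with h | h
    · show wdg (a y) (b y) = wdg (a' y) (b y)
      rw [h, wdg_zero_right, wdg_zero_right]
    · show wdg (a y) (b y) = wdg (a' y) (b y)
      rw [h]
  · intro β b C hC hβ hb h0
    have h1 : IsExt (show Form (Cm 4) ℝ 7 M from fun y => wdg (β y) (b y))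
        (show Form (Cm 4) ℝ 8 M from fun y => wdg (dF β y) (b y)) :=
      isExt_wdg hβ (fun y => (hb y).1) (fun y => (hb y).2)
    refine intM_stokes (fun y => smAt_wdg (hβ y) (hb y).1) h1 hC ?_
    intro y hy
    show wdg (β y) (b y) = 0
    rcases h0 with h0 | h0
    · rw [h0 y hy, wdg_zero_left]
    · rw [h0 y hy, wdg_zero_right]

end Vale.Agent.P277.H619
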