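import Vale.Agent.P277.H619.D7
import Vale.Agent.P277.H29.D5
import Vale.Agent.P277.H615.D6

namespace Vale.Agent.P277

/-- Statement D: construction of the finite family of holomorphic sections. -/
theorem stD : StD := H619.stD_of H29.stD5 H615.stD6

end Vale.Agent.P277
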