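import Vale.Agent.P277.H619.Pair2
import Vale.Agent.P277.H60.Iface4
import Vale.Agent.P277.F.F4
import Vale.Agent.P277.H19.Pos1

/-!
# P277: assembly of (F') and (F)
-/

set_option maxSynthPendingDepth 3

open scoped Manifold ContDiff Topology
open Vale.Agent.P272.K Vale.Agent.P285.H281.FD Vale.Agent.P267.H175 Set
open Vale.Agent.P267.H928.Int ContinuousAlternatingMap

noncomputable section

namespace Vale.Agent.P277.H619

open Vale.Agent.P277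

/-- the coefficient of the square of the curvature form of a radial tuple -/
def kap (c : ℝ → ℝ) (t : ℝ) : ℝ := 8 * (c t ^ 2 - 2 * t * c t * deriv c t) / (t + c t ^ 2) ^ 3

theorem kap_nonneg {c : ℝ → ℝ} (hs : ContDiff ℝ ∞ c) (ha : Antitone c) (hn : ∀ t, 0 ≤ c t) {t : ℝ}
    (ht : 0 ≤ t) : 0 ≤ kap c t := by
  have h1 : deriv c t ≤ 0 := ha.deriv_nonpos
  have h2 := hn t
  unfold kap
  refine div_nonneg ?_ (by positivity)
  have h3 : 0 ≤ t * c t * (-deriv c t) := by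
    refine mul_nonneg (mul_nonneg ht h2) (by linarith)
  nlinarith [sq_nonneg (c t)]

theorem kap_zero_pos {c : ℝ → ℝ} (hp : 0 < c 0) : 0 < kap c 0 := by
  unfold kap
  have : 8 * (c 0 ^ 2 - 2 * 0 * c 0 * deriv c 0) / (0 + c 0 ^ 2) ^ 3 = 8 * c 0 ^ 2 / (c 0 ^ 2) ^ 3 := by
    ring
  rw [this]
  positivity

theorem kap_continuousAt {c : ℝ → ℝ} (hs : ContDiff ℝ ∞ c) (hp : 0 < c 0) :
    ContinuousAt (kap c) 0 := by
  have h1 : Continuous c := hs.continuous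
  have h2 : Continuous (deriv c) := hs.continuous_deriv (by simp)
  unfold kap
  refine ContinuousAt.div ?_ ?_ ?_
  · exact Continuous.continuousAt (by fun_prop)
  · exact Continuous.continuousAt (by fun_prop)
  · have : (0 : ℝ) + c 0 ^ 2 = c 0 ^ 2 := by ring
    rw [this]; positivity

/-- `fderiv` of a function on `Y` in the chart `e` -/
abbrev Dc {Y : Type} [TopologicalSpace Y] (e : OpenPartialHomeomorph Y (Cm 4)) (f : Y → ℂ) (y : Y) :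
    Cm 4 →L[ℝ] ℂ := fderiv ℝ (fun z => f (e.symm z)) (e y)

/-- the wedge product of the real and imaginary parts of two complex covectors and a form -/
abbrev w4 {E : Type} [NormedAddCommGroup E] [NormedSpace ℝ E] {k : ℕ} (l l' : E →L[ℝ] ℂ)
    (β : E [⋀^Fin k]→L[ℝ] ℝ) : E [⋀^Fin (k + 1 + 1 + 1 + 1)]→L[ℝ] ℝ :=
  wedge1 (Complex.reCLM ∘L l) (wedge1 (Complex.imCLM ∘L l) (wedge1 (Complex.reCLM ∘L l')
    (wedge1 (Complex.imCLM ∘L l') β)))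

/-- the output of the construction of the forms -/
def StEta : Prop :=
  ∀ (Y : Type) [TopologicalSpace Y] [T2Space Y] [ChartedSpace (Cm 4) Y]
    [IsManifold 𝓘(ℂ, Cm 4) ω Y] (T : Type) [TopologicalSpace T] (v : Y → T) (P : Bd T) (W : Set Y)
    (_ : IsOpen W) (_ : ContinuousOn v W) (_ : ∀ i, IsOpen (P.U i)) (_ : ∀ x, ∃ i, x ∈ P.U i)
    (_ : ∀ i j, ∀ y ∈ W, v y ∈ P.U i → v y ∈ P.U j →
      CSm (fun y => P.g i j (v y)) y ∧ P.g i j (v y) ≠ 0) (n : ℕ) (F : Fin (n + 3) → P.ι → Y → ℂ)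
    (_ : Tup v P W F) (C₀ : Set Y) (_ : C₀ ⊆ W) (_ : IsCompact C₀)
    (_ : ∀ y ∈ W, y ∉ C₀ → ∀ i, v y ∈ P.U i → ∀ m : Fin (n + 3), 2 ≤ m.val → F m i y = 0),
    ∃ η : Fm 4 Y, (∀ y, SmAt η y) ∧ (∀ y, dF η y = 0) ∧ (∀ y ∉ C₀, η y = 0) ∧
      ∀ y ∈ W, ∀ i, v y ∈ P.U i → ∀ (f f' : Y → ℂ) (c : ℝ → ℝ), Rad (fun m => F m i) f f' y c →
        ∀ e ∈ atlas (Cm 4) Y, y ∈ e.source → loc e η (e y) =
          kap c (‖f y‖ ^ 2 + ‖f' y‖ ^ 2) • w4 (Dc e f y) (Dc e f' y) (one0 : Cm 4 [⋀^Fin 0]→L[ℝ] ℝ)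

def e8 {E : Type} [NormedAddCommGroup E] [NormedSpace ℝ E] (l : Fin 4 → E →L[ℝ] ℂ) :
    E [⋀^Fin 8]→L[ℝ] ℝ := w4 (l 0) (l 1) (w4 (l 2) (l 3) (one0 : E [⋀^Fin 0]→L[ℝ] ℝ))

def StE8 : Prop := ∀ l : Fin 4 → Cm 4 →L[ℂ] ℂ, e8 (fun i => (l i).restrictScalars ℝ) stdB =
  ‖(Matrix.of fun i j => l i (Pi.single j 1)).det‖ ^ 2

theorem wdg_w4 {E : Type} [NormedAddCommGroup E] [NormedSpace ℝ E] {k q : ℕ} (l l' : E →L[ℝ] ℂ)
    (β : E [⋀^Fin k]→L[ℝ] ℝ) (γ : E [⋀^Fin q]→L[ℝ] ℝ) : wdg (w4 l l' β) γ = w4 l l' (wdg β γ) := by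
  unfold w4
  rw [wdg_wedge1, wdg_wedge1, wdg_wedge1, wdg_wedge1]

theorem w4_smul {E : Type} [NormedAddCommGroup E] [NormedSpace ℝ E] {k : ℕ} (l l' : E →L[ℝ] ℂ)
    (c : ℝ) (β : E [⋀^Fin k]→L[ℝ] ℝ) : w4 l l' (c • β) = c • w4 l l' β := by
  unfold w4
  rw [H60.wedge1_smul_right, H60.wedge1_smul_right, H60.wedge1_smul_right, H60.wedge1_smul_right]

theorem fsm_fsm {E : Type} [NormedAddCommGroup E] [NormedSpace ℝ E] {p q : ℕ} (κ κ' : ℝ)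
    (A : E [⋀^Fin p]→L[ℝ] ℝ) (B : E [⋀^Fin q]→L[ℝ] ℝ) :
    wdg (fsm κ A) (fsm κ' B) = fsm (κ * κ') (wdg A B) := by
  rw [fsm, fsm, wdg_smul_left, wdg_smul_right, smul_smul]; rfl

theorem wdg_e8' {E : Type} [NormedAddCommGroup E] [NormedSpace ℝ E] (l : Fin 4 → E →L[ℝ] ℂ) :
    (wdg (w4 (l 0) (l 1) (one0 : E [⋀^Fin 0]→L[ℝ] ℝ))
      (w4 (l 2) (l 3) (one0 : E [⋀^Fin 0]→L[ℝ] ℝ)) :) = e8 l :=
  (wdg_w4 (l 0) (l 1) (one0 : E [⋀^Fin 0]→L[ℝ] ℝ)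
    (w4 (l 2) (l 3) (one0 : E [⋀^Fin 0]→L[ℝ] ℝ))).trans
      (congrArg (fun t => w4 (l 0) (l 1) t) (wdg_one0 _))

theorem wdg_e8 {E : Type} [NormedAddCommGroup E] [NormedSpace ℝ E] (κ κ' : ℝ)
    (l : Fin 4 → E →L[ℝ] ℂ) {x y : E [⋀^Fin 4]→L[ℝ] ℝ}
    (hx : x = fsm κ (w4 (l 0) (l 1) (one0 : E [⋀^Fin 0]→L[ℝ] ℝ)))
    (hy : y = fsm κ' (w4 (l 2) (l 3) (one0 : E [⋀^Fin 0]→L[ℝ] ℝ))) :
    wdg x y = fsm (κ * κ') (e8 l) := by
  rw [hx, hy]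
  exact (fsm_fsm κ κ' (w4 (l 0) (l 1) (one0 : E [⋀^Fin 0]→L[ℝ] ℝ))
    (w4 (l 2) (l 3) (one0 : E [⋀^Fin 0]→L[ℝ] ℝ))).trans (congrArg (fsm (κ * κ')) (wdg_e8' l))

/-- the value of a form -/
def evf {E : Type} [NormedAddCommGroup E] [NormedSpace ℝ E] {k : ℕ} (x : E [⋀^Fin k]→L[ℝ] ℝ)
    (v : Fin k → E) : ℝ := x v

theorem evf_fsm {E : Type} [NormedAddCommGroup E] [NormedSpace ℝ E] {k : ℕ} (c : ℝ)
    (x : E [⋀^Fin k]→L[ℝ] ℝ) (v : Fin k → E) : evf (fsm c x) v = c * evf x v := rfl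

theorem to_evf {k : ℕ} (x : Cm 4 [⋀^Fin k]→L[ℝ] ℝ) (v : Fin k → Cm 4) : x v = evf x v := rfl

theorem to_fsm {k : ℕ} (c : ℝ) (x : Cm 4 [⋀^Fin k]→L[ℝ] ℝ) : c • x = fsm c x := rfl

theorem w4_fsm {x : Cm 4 [⋀^Fin 4]→L[ℝ] ℝ} {κ : ℝ} {l l' : Cm 4 →L[ℝ] ℂ}
    (h : x = κ • w4 l l' (one0 : Cm 4 [⋀^Fin 0]→L[ℝ] ℝ)) :
    x = fsm κ (w4 l l' (one0 : Cm 4 [⋀^Fin 0]→L[ℝ] ℝ)) := by
  generalize w4 l l' (one0 : Cm 4 [⋀^Fin 0]→L[ℝ] ℝ) = z at h ⊢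
  exact h

theorem evf_of {E : Type} [NormedAddCommGroup E] [NormedSpace ℝ E] {k : ℕ} {x : E [⋀^Fin k]→L[ℝ] ℝ}
    {v : Fin k → E} {r : ℝ} (h : x v = r) : evf x v = r := h

/-- (the order of the components matters: `L` has to be copied from the type of `h8 l`) -/
theorem e8_ex (h8 : StE8) (l : Fin 4 → Cm 4 →L[ℂ] ℂ) : ∃ L : Fin 4 → Cm 4 →L[ℝ] ℂ,
    evf (e8 L) stdB = ‖(Matrix.of fun i j => l i (Pi.single j 1)).det‖ ^ 2 ∧
      ∀ i, L i = (l i).restrictScalars ℝ := by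
  have h := evf_of (h8 l)
  exact ⟨_, h, fun _ => rfl⟩

theorem evf_prod {x y : Cm 4 [⋀^Fin 4]→L[ℝ] ℝ} {κ κ' r : ℝ} {L : Fin 4 → Cm 4 →L[ℝ] ℂ}
    (h1 : x = fsm κ (w4 (L 0) (L 1) (one0 : Cm 4 [⋀^Fin 0]→L[ℝ] ℝ)))
    (h2 : y = fsm κ' (w4 (L 2) (L 3) (one0 : Cm 4 [⋀^Fin 0]→L[ℝ] ℝ))) (h3 : evf (e8 L) stdB = r) :
    evf (wdg x y) stdB = κ * κ' * r :=
  (congrArg (fun t => evf t stdB) (wdg_e8 κ κ' L h1 h2)).trans
    ((evf_fsm (κ * κ') (e8 L) stdB).trans (congrArg (fun t => κ * κ' * t) h3))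

/-- the product of the two forms at a point where both tuples are radial -/
theorem loc_prod {Y : Type} [TopologicalSpace Y] [T2Space Y] [ChartedSpace (Cm 4) Y]
    [IsManifold 𝓘(ℂ, Cm 4) ω Y] (h8 : StE8) {X : CSp} {O : Set Y} {v : Y → X.pt}
    (hv : IsOpenEmb X O v) {η θ : Fm 4 Y} {y : Y} (hy : y ∈ O)
    {e : OpenPartialHomeomorph Y (Cm 4)} (he : e ∈ atlas (Cm 4) Y) (hye : y ∈ e.source)
    {g g' h h' : X.pt → ℂ} (hg : X.Hol g (v y)) (hg' : X.Hol g' (v y)) (hh : X.Hol h (v y))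
    (hh' : X.Hol h' (v y)) {κ κ' : ℝ}
    (h1 : loc e η (e y) = κ • w4 (Dc e (fun y => g (v y)) y) (Dc e (fun y => g' (v y)) y)
      (one0 : Cm 4 [⋀^Fin 0]→L[ℝ] ℝ))
    (h2 : loc e θ (e y) = κ' • w4 (Dc e (fun y => h (v y)) y) (Dc e (fun y => h' (v y)) y)
      (one0 : Cm 4 [⋀^Fin 0]→L[ℝ] ℝ)) :
    loc e (fun y => wdg (η y) (θ y)) (e y) stdB =
      κ * κ' * ‖Jac v ![g, g', h, h'] e (e y)‖ ^ 2 := by
  have e1 : loc e (fun y => wdg (η y) (θ y)) (e y) = wdg (loc e η (e y)) (loc e θ (e y)) :=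
    congrFun (loc_wdg e η θ) (e y)
  have hat : At e y := ⟨he, hye⟩
  have hd : ∀ {g : X.pt → ℂ}, X.Hol g (v y) →
      (fderiv ℂ (fun z => g (v (e.symm z))) (e y)).restrictScalars ℝ =
        Dc e (fun y => g (v y)) y := by
    intro g hg
    have h3 : AnalyticAt ℂ (fun z => g (v (e.symm z))) (e y) := (hv.hol y hy e hat g).1 hg
    exact ((h3.differentiableAt.hasFDerivAt.restrictScalars ℝ).fderiv).symm
  obtain ⟨L, h3, hL⟩ := e8_ex h8 ![fderiv ℂ (fun z => g (v (e.symm z))) (e y),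
    fderiv ℂ (fun z => g' (v (e.symm z))) (e y), fderiv ℂ (fun z => h (v (e.symm z))) (e y),
    fderiv ℂ (fun z => h' (v (e.symm z))) (e y)]
  have h4 : (Matrix.of fun i j => (![fderiv ℂ (fun z => g (v (e.symm z))) (e y),
      fderiv ℂ (fun z => g' (v (e.symm z))) (e y), fderiv ℂ (fun z => h (v (e.symm z))) (e y),
      fderiv ℂ (fun z => h' (v (e.symm z))) (e y)] : Fin 4 → Cm 4 →L[ℂ] ℂ) i (Pi.single j 1)).det =
      Jac v ![g, g', h, h'] e (e y) := by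
    unfold Jac
    congr 1
    ext i j
    fin_cases i <;> rfl
  rw [h4] at h3
  have l0 : Dc e (fun y => g (v y)) y = L 0 := ((hL 0).trans (hd hg)).symm
  have l1 : Dc e (fun y => g' (v y)) y = L 1 := ((hL 1).trans (hd hg')).symm
  have l2 : Dc e (fun y => h (v y)) y = L 2 := ((hL 2).trans (hd hh)).symm
  have l3 : Dc e (fun y => h' (v y)) y = L 3 := ((hL 3).trans (hd hh')).symm
  have k1 := w4_fsm h1
  have k2 := w4_fsm h2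
  rw [l0, l1] at k1
  rw [l2, l3] at k2
  have k5 := congrArg (fun t => evf t stdB) e1
  exact (to_evf (loc e (fun y => wdg (η y) (θ y)) (e y)) stdB).trans
    (k5.trans (evf_prod k1 k2 h3))

theorem loc_zero {Y : Type} [TopologicalSpace Y] [ChartedSpace (Cm 4) Y] {k : ℕ} {F : Fm k Y} {y : Y}
    {e : OpenPartialHomeomorph Y (Cm 4)} (hye : y ∈ e.source) (h : F y = 0) :
    loc e F (e y) = 0 := by
  rw [loc, e.left_inv hye, h]; rfl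

theorem zero_nonneg {k : ℕ} {x : Cm 4 [⋀^Fin k]→L[ℝ] ℝ} (h : x = 0) (v : Fin k → Cm 4) :
    0 ≤ x v := by
  rw [h]; exact le_rfl

/-- (F') -/
theorem stF'_of (h8 : StE8) (hE : StEta) (hPair : StPair) : StF' := by
  intro Y _ _ _ _ _ X O v hv hB P Q G s s' σ σ' x₀ hf
  obtain ⟨n, F, C₀, hF, hC₀, hC₀c, hF2, hmain⟩ :=
    exists_tuples Y X O v hv hB P Q G s s' σ σ' x₀ hf
  have hvG : IsOpen (O ∩ v ⁻¹' G) := hv.cont.isOpen_inter_preimage hv.isOpen hf.isOpen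
  have hg : ∀ (L : Bd X.pt), IsLBx X L → ∀ (i j : L.ι), ∀ y ∈ O, v y ∈ L.U i → v y ∈ L.U j →
      CSm (fun y => L.g i j (v y)) y ∧ L.g i j (v y) ≠ 0 := by
    intro L hL i j y hy hi hj
    refine ⟨fun e he => ?_, hL.ne_zero i j _ hi hj⟩
    exact ((hv.hol y hy e he _).1 (hL.holo i j _ hi hj)).contDiffAt.restrict_scalars ℝ
  obtain ⟨η, hη1, hη2, hη3, hη4⟩ := hE Y X.pt v P O hv.isOpen hv.cont hf.lbP.isOpen hf.lbP.cover
    (hg P hf.lbP) n F hF C₀ hC₀ hC₀c hF2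
  refine ⟨η, ⟨hη1, hη2, C₀, hC₀, hC₀c, hη3⟩, fun C hC hCc hdis => ?_⟩
  obtain ⟨n', F', C', hF', hC', hC'c, hdj, hF'2, hrad, y₀, hy₀, hvy₀, i, j, c, c', hi, hj, hr, hr',
    hjac⟩ := hmain C hC hCc hdis
  obtain ⟨θ, hθ1, hθ2, hθ3, hθ4⟩ := hE Y X.pt v Q (O ∩ v ⁻¹' G) hvG
    (hv.cont.mono inter_subset_left) hf.lbQ.isOpen hf.lbQ.cover
    (fun i j y hy => hg Q hf.lbQ i j y hy.1) n' F' hF' C' hC' hC'c hF'2
  refine ⟨θ, ⟨hθ1, hθ2, C', fun y hy => (hC' hy).1, hC'c, hθ3⟩, fun y hy => ?_, ?_⟩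
  · exact hθ3 y fun h => hdj.le_bot ⟨h, hy⟩
  -- positivity
  have hx₀ : x₀ ∈ G := hf.mem.1.1
  rw [(hPair Y).comm]
  have hsm : ∀ y, SmAt (fun y => wdg (η y) (θ y)) y := fun y => smAt_wdg (hη1 y) (hθ1 y)
  have hform : ∀ y ∈ O ∩ v ⁻¹' G, ∀ e ∈ atlas (Cm 4) Y, y ∈ e.source → ∀ i j c c',
      v y ∈ P.U i → v y ∈ Q.U j →
      Rad (fun m => F m i) (fun y => s i (v y)) (fun y => s' i (v y)) y c →
      Rad (fun m => F' m j) (fun y => σ j (v y)) (fun y => σ' j (v y)) y c' →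
      loc e (fun y => wdg (η y) (θ y)) (e y) stdB =
        kap c (‖s i (v y)‖ ^ 2 + ‖s' i (v y)‖ ^ 2) * kap c' (‖σ j (v y)‖ ^ 2 + ‖σ' j (v y)‖ ^ 2) *
          ‖Jac v ![s i, s' i, σ j, σ' j] e (e y)‖ ^ 2 := by
    intro y hy e he hye i j c c' hi hj hr hr'
    exact loc_prod h8 hv hy.1 he hye (hf.sec.holo i _ hy.2 hi) (hf.sec'.holo i _ hy.2 hi)
      (hf.secσ.holo j _ hy.2 hj) (hf.secσ'.holo j _ hy.2 hj)
      (hη4 y hy.1 i hi _ _ c hr e he hye) (hθ4 y hy j hj _ _ c' hr' e he hye)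
  -- a point with nonzero Jacobian
  have ht0 : ‖s i (v y₀)‖ ^ 2 + ‖s' i (v y₀)‖ ^ 2 = 0 ∧
      ‖σ j (v y₀)‖ ^ 2 + ‖σ' j (v y₀)‖ ^ 2 = 0 := by
    rw [hvy₀]
    have hz : ∀ {L : Bd X.pt} {u : L.ι → X.pt → ℂ}, IsSecx X G L u → x₀ ∈ Zs L u → ∀ i,
        x₀ ∈ L.U i → u i x₀ = 0 := by
      intro L u hu ⟨k, hk, hk0⟩ i hi
      rw [hu.change i k x₀ hx₀ hi hk, hk0, mul_zero]
    rw [hz hf.sec hf.zero.1 i hi, hz hf.sec' hf.zero.2 i hi, hz hf.secσ hf.mem.1.2 j hj,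
      hz hf.secσ' hf.mem.2 j hj]
    simp
  have hcv : ContinuousAt v y₀ := hv.cont.continuousAt (hv.isOpen.mem_nhds hy₀)
  have hc : ∀ {g : X.pt → ℂ}, X.Hol g (v y₀) → ContinuousAt (fun y => g (v y)) y₀ := by
    intro g hg
    have h1 : AnalyticAt ℂ (fun z => g (v ((chartAt (Cm 4) y₀).symm z))) (chartAt (Cm 4) y₀ y₀) :=
      (hv.hol y₀ hy₀ _ ⟨chart_mem_atlas _ _, mem_chart_source _ _⟩ g).1 hg
    have h2 : ContinuousAt (chartAt (Cm 4) y₀) y₀ :=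
      (chartAt (Cm 4) y₀).continuousAt (mem_chart_source _ _)
    have h3 : ContinuousAt ((fun z => g (v ((chartAt (Cm 4) y₀).symm z))) ∘ chartAt (Cm 4) y₀) y₀ :=
      ContinuousAt.comp h1.continuousAt h2
    refine h3.congr ?_
    filter_upwards [(chartAt (Cm 4) y₀).open_source.mem_nhds (mem_chart_source _ _)] with y hy
    simp only [Function.comp_apply, (chartAt (Cm 4) y₀).left_inv hy]
  have hvy₀G : v y₀ ∈ G := hvy₀ ▸ hx₀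
  have hviP : v y₀ ∈ P.U i := hvy₀ ▸ hi
  have hvjQ : v y₀ ∈ Q.U j := hvy₀ ▸ hj
  have k1 : ∀ᶠ y in 𝓝 y₀, 0 < kap c (‖s i (v y)‖ ^ 2 + ‖s' i (v y)‖ ^ 2) := by
    have h1 : ContinuousAt (fun y => ‖s i (v y)‖ ^ 2 + ‖s' i (v y)‖ ^ 2) y₀ :=
      ((hc (hf.sec.holo i _ hvy₀G hviP)).norm.pow 2).add
        ((hc (hf.sec'.holo i _ hvy₀G hviP)).norm.pow 2)
    have h2 : ContinuousAt (fun y => kap c (‖s i (v y)‖ ^ 2 + ‖s' i (v y)‖ ^ 2)) y₀ :=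
      ContinuousAt.comp (g := kap c) (by rw [ht0.1]; exact kap_continuousAt hr.smooth hr.pos) h1
    refine h2.eventually_const_lt ?_
    beta_reduce
    rw [ht0.1]; exact kap_zero_pos hr.pos
  have k2 : ∀ᶠ y in 𝓝 y₀, 0 < kap c' (‖σ j (v y)‖ ^ 2 + ‖σ' j (v y)‖ ^ 2) := by
    have h1 : ContinuousAt (fun y => ‖σ j (v y)‖ ^ 2 + ‖σ' j (v y)‖ ^ 2) y₀ :=
      ((hc (hf.secσ.holo j _ hvy₀G hvjQ)).norm.pow 2).add
        ((hc (hf.secσ'.holo j _ hvy₀G hvjQ)).norm.pow 2)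
    have h2 : ContinuousAt (fun y => kap c' (‖σ j (v y)‖ ^ 2 + ‖σ' j (v y)‖ ^ 2)) y₀ :=
      ContinuousAt.comp (g := kap c') (by rw [ht0.2]; exact kap_continuousAt hr'.smooth hr'.pos) h1
    refine h2.eventually_const_lt ?_
    beta_reduce
    rw [ht0.2]; exact kap_zero_pos hr'.pos
  have k3 : ∀ᶠ y in 𝓝 y₀, Rad (fun m => F m i) (fun y => s i (v y)) (fun y => s' i (v y)) y c := by
    filter_upwards [hr.eq.eventually_nhds] with y hy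
    exact ⟨hr.smooth, hr.anti, hr.nonneg, hr.pos, hy⟩
  have k4 : ∀ᶠ y in 𝓝 y₀,
      Rad (fun m => F' m j) (fun y => σ j (v y)) (fun y => σ' j (v y)) y c' := by
    filter_upwards [hr'.eq.eventually_nhds] with y hy
    exact ⟨hr'.smooth, hr'.anti, hr'.nonneg, hr'.pos, hy⟩
  obtain ⟨N, hN, hNo, hy₀N⟩ := eventually_nhds_iff.1 (((k1.and k2).and (k3.and k4)).and
    (hv.isOpen.mem_nhds hy₀))
  have hNO : N ⊆ O := fun y hy => (hN y hy).2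
  obtain ⟨y₁, hy₁O, ⟨⟨⟨y₂, hy₂, hvy₂⟩, hy₁G⟩, hy₁P, hy₁Q⟩, hJ⟩ :=
    hjac (v '' N) (hv.isOpenMap N hNO hNo) ⟨y₀, hy₀N, hvy₀⟩
  have hy₁N : y₁ ∈ N := by
    rw [← hv.inj (hNO hy₂) hy₁O hvy₂]; exact hy₂
  have hat : At (chartAt (Cm 4) y₁) y₁ := ⟨chart_mem_atlas _ _, mem_chart_source _ _⟩
  obtain ⟨⟨⟨p1, p2⟩, p3, p4⟩, -⟩ := hN y₁ hy₁N
  have hpos := hform y₁ ⟨hy₁O, hy₁G⟩ _ hat.1 hat.2 i j c c' hy₁P hy₁Q p3 p4
  refine (H19.intM_pos hsm hC₀c (fun y hy => ?_) (fun y e he hye => ?_) hat.1 hat.2 ?_).ne'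
  · show wdg (η y) (θ y) = 0
    rw [hη3 y hy, wdg_zero_left]
  · by_cases h1 : y ∈ C₀
    · by_cases h2 : y ∈ C'
      · obtain ⟨i, j, c, c', hi, hj, hr, hr'⟩ := hrad y ⟨h1, h2⟩
        rw [hform y (hC' h2) e he hye i j c c' hi hj hr hr']
        refine mul_nonneg (mul_nonneg (kap_nonneg hr.smooth hr.anti hr.nonneg (by positivity))
          (kap_nonneg hr'.smooth hr'.anti hr'.nonneg (by positivity))) (by positivity)
      · have h3 : wdg (η y) (θ y) = 0 := by rw [hθ3 y h2, wdg_zero_right]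
        exact zero_nonneg (loc_zero (F := fun y => wdg (η y) (θ y)) hye h3) _
    · have h3 : wdg (η y) (θ y) = 0 := by rw [hη3 y h1, wdg_zero_left]
      exact zero_nonneg (loc_zero (F := fun y => wdg (η y) (θ y)) hye h3) _
  · rw [hpos]
    have := hJ _ hat
    positivity

/-- (F) -/
theorem stF_of (hF' : StF') (hPair : StPair) : StF := by
  intro Y _ _ _ _ _ X O v hv hB P Q G s s' σ σ' x₀ hf
  have hsc : SecondCountableTopology Y := ChartedSpace.secondCountable_of_sigmaCompact (Cm 4) Y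
  obtain ⟨η, hη, hmain⟩ := hF' Y X O v hv hB P Q G s s' σ σ' x₀ hf
  refine ⟨η, fun y => ⟨hη.sm y, hη.closed y⟩, hη.cpt, fun C hC hCc hdis => ?_⟩
  obtain ⟨θ, hθ, hθC, hne⟩ := hmain C hC hCc hdis
  have pp := hPair Y
  refine ⟨fun a => pr Y a θ, ?_, ?_, ?_, ?_, ?_⟩
  · intro a b ha hb
    exact pp.add a b θ univ isCompact_univ (fun y => ⟨ha y, hb y, hθ.sm y⟩)
      (fun y hy => absurd (mem_univ y) hy)
  · intro c a _
    exact pp.smul c a θ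
  · intro β hβ
    exact pp.stokes β θ univ isCompact_univ hβ (fun y => ⟨hθ.sm y, hθ.closed y⟩)
      (Or.inl fun y hy => absurd (mem_univ y) hy)
  · intro a _ ha0
    have h1 : pr Y a θ = pr Y 0 θ := by
      refine pp.congr a 0 θ fun y => ?_
      by_cases hy : y ∈ C
      · exact Or.inl (hθC y hy)
      · exact Or.inr (ha0 y hy)
    have h2 : pr Y 0 θ = 0 := by
      have := pp.smul 0 0 θ
      rwa [zero_smul, zero_mul] at this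
    show pr Y a θ = 0
    rw [h1, h2]
  · show pr Y η θ ≠ 0
    rw [pp.comm]; exact hne

end Vale.Agent.P277.H619
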