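import Vale.Agent.P277.H619.Surf
import Vale.Agent.P277.H615.Step

/-!
# P277: assembly of Theorem R∞
-/

open scoped Manifold ContDiff Topology
open Vale.Agent.P272.K Vale.Agent.P285.H281.FD Vale.Agent.P267.H175 Set Filter

noncomputable section

namespace Vale.Agent.P277.H619

open Vale.Agent.P277

theorem negl_of_dimLe {X : CSp} {S : Set X.pt} {d s : ℕ} (h : DimLe X d S) (hs : 2 * d < s) :
    Negl (RegT X) s (RegT.val ⁻¹' S) := by
  intro e he
  by_cases hne : Nonempty (RegT X)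
  swap
  · have : e '' (RegT.val ⁻¹' S ∩ e.source) = ∅ := by
      rw [image_eq_empty]
      ext x
      exact ⟨fun _ => hne ⟨x⟩, fun h => h.elim⟩
    rw [this]; exact MeasureTheory.measure_empty
  obtain ⟨x₀⟩ := hne
  have hv := RegT.isOpenEmb_val X
  set V : Set X.pt := RegT.val '' e.source with hV
  have hVo : IsOpen V := hv.isOpenMap _ (subset_univ _) e.open_source
  obtain ⟨κ, hκ, c, r, g, i, hr, hg, hgU, hcov⟩ := (h.mono (show S ∩ V ⊆ S from
    fun y hy => hy.1)).refine (U := fun _ : Unit => V) (fun _ => hVo)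
      (fun y hy => mem_iUnion.2 ⟨(), hy.2⟩)
  have h1 : e '' (RegT.val ⁻¹' S ∩ e.source) ⊆
      ⋃ k, (fun p => e (hv.inv x₀ (g k p))) '' Metric.ball (c k) (r k) := by
    rintro _ ⟨y, ⟨hyS, hye⟩, rfl⟩
    obtain ⟨k, p, hp, hpy⟩ := mem_iUnion.1 (hcov ⟨hyS, y, hye, rfl⟩)
    refine mem_iUnion.2 ⟨k, p, hp, ?_⟩
    show e (hv.inv x₀ (g k p)) = e y
    rw [hpy, hv.inv_apply x₀ (mem_univ y)]
  have h2 : dimH (e '' (RegT.val ⁻¹' S ∩ e.source)) ≤ (2 * d : ℕ) := by
    refine (dimH_mono h1).trans ?_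
    rw [dimH_iUnion]
    refine iSup_le fun k => dimH_image_ball ?_
    intro p hp
    have hp' := Metric.ball_subset_closedBall hp
    have h3 : AnalyticAt ℂ (fun p => e (hv.inv x₀ (g k p))) p := by
      have h4 : ∀ a, AnalyticAt ℂ (fun q => e (hv.inv x₀ (g k q)) a) p := fun a => by
        obtain ⟨y, hy, hyg⟩ := hgU k p hp'
        refine (hg k p hp').2 (fun x => e (hv.inv x₀ x) a) ?_
        rw [← hyg]
        exact hv.hol_chart x₀ (mem_univ y) ⟨he, hy⟩ a
      exact AnalyticAt.pi h4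
    exact (h3.restrictScalars (𝕜 := ℝ)).contDiffAt.contDiffWithinAt
  have h3 : dimH (e '' (RegT.val ⁻¹' S ∩ e.source)) < ((s : NNReal) : ENNReal) := by
    refine h2.trans_lt ?_
    exact_mod_cast hs
  have h4 := hausdorffMeasure_of_dimH_lt h3
  simpa using h4

theorem RankOn.mono' {M : Type} [TopologicalSpace M] [T2Space M] [SecondCountableTopology M]
    [ChartedSpace (Cm 4) M] [IsManifold 𝓘(ℂ, Cm 4) ω M] {U V : Set M} {ρ : ℕ}
    (h : RankOn M V ρ) (hUV : U ⊆ V) : RankOn M U ρ := fun n a b ha hb =>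
  h n a b (fun i => ⟨(ha i).sm, (ha i).closed, (ha i).cpt.imp fun _ h => ⟨h.1.trans hUV, h.2⟩⟩)
    (fun i => ⟨(hb i).sm, (hb i).closed, (hb i).cpt.imp fun _ h => ⟨h.1.trans hUV, h.2⟩⟩)

/-- the set of surface points is relatively open -/
theorem isSurfX_open {X : CSp} {S : Set X.pt} {x : X.pt} (h : IsSurfX X S x) :
    ∀ᶠ y in 𝓝 x, y ∈ S → IsSurfX X S y := by
  obtain ⟨Ω, g, u, hΩ, hg, hxg, hu, hug, hS⟩ := h
  filter_upwards [hS.eventually_nhds, eventually_all.2 fun i => (hu i).eventually_nhds] with y hy hy2 hyS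
  have h1 := hy.self_of_nhds.1 hyS
  exact ⟨Ω, g, u, hΩ, hg, ⟨u y, h1.1, h1.2⟩, hy2, hug, hy⟩

section

variable {X Z X' : CSp} {f : X.pt → Z.pt} {f' : X'.pt → Z.pt} {A : Set Z.pt}

theorem isReg_flip (sm : IsSmall X Z f A) (sm' : IsSmall X' Z f' A) (x : RegT X)
    (hx : f x.val ∉ A) : IsReg 4 X' (sm'.sec (f x.val)) :=
  ((RegT.isOpenEmb_val X).flip sm sm').isReg (y := x) ⟨mem_univ _, hx⟩

/-- the identification of open subsets of the regular loci -/
theorem exists_map (sm : IsSmall X Z f A) (sm' : IsSmall X' Z f' A) (y0 : RegT X') :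
    ∃ φ : RegT X → RegT X', (∀ x : RegT X, f x.val ∉ A → (φ x).val = sm'.sec (f x.val)) ∧
      ContinuousOn φ {x | f x.val ∉ A} ∧
      ∀ y : RegT X, f y.val ∉ A → ∀ (e : Chart 4 (RegT X)) (e' : Chart 4 (RegT X')),
        At e y → At e' (φ y) → AnalyticAt ℂ (fun z => e' (φ (e.symm z))) (e y) := by
  classical
  have h2 := (RegT.isOpenEmb_val X).flip sm sm'
  let φ : RegT X → RegT X' := fun x => if h : f x.val ∉ A then ⟨_, isReg_flip sm sm' x h⟩ else y0
  have hφ : ∀ x : RegT X, f x.val ∉ A → (φ x).val = sm'.sec (f x.val) := by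
    intro x hx
    have : φ x = ⟨_, isReg_flip sm sm' x hx⟩ := dif_pos hx
    rw [this]; rfl
  refine ⟨φ, hφ, ?_, ?_⟩
  · rw [RegT.isOpenEmbedding_val.isInducing.continuousOn_iff]
    refine ContinuousOn.congr (f := fun x : RegT X => sm'.sec (f x.val)) ?_ ?_
    · exact h2.cont.mono fun x hx => ⟨mem_univ _, hx⟩
    · intro x hx; exact hφ x hx
  · intro y hy e e' he he'
    rw [analyticAt_pi_iff]
    intro a
    have h3 : X'.Hol (fun x => e' ((RegT.isOpenEmb_val X').inv (φ y) x) a) (φ y).val :=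
      (RegT.isOpenEmb_val X').hol_chart (φ y) (mem_univ _) he' a
    rw [hφ y hy] at h3
    have h4 := (h2.hol_iff (y := y) ⟨mem_univ _, hy⟩ he).1 h3
    refine h4.congr ?_
    have h5 : ∀ᶠ z in 𝓝 (e y), f (e.symm z).val ∉ A := by
      have h6 : ContinuousAt (fun z => f (e.symm z).val) (e y) := by
        have h7 : ContinuousAt e.symm (e y) := e.continuousAt_symm (e.map_source he.2)
        exact ContinuousAt.comp (g := fun x : RegT X => f x.val)
          (sm.cont.comp RegT.continuous_val).continuousAt h7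
      refine h6.eventually_mem (sm.isClosed.isOpen_compl.mem_nhds ?_)
      rw [e.left_inv he.2]; exact hy
    filter_upwards [h5] with z hz
    show e' ((RegT.isOpenEmb_val X').inv (φ y) (sm'.sec (f (e.symm z).val))) a = _
    rw [← hφ _ hz, (RegT.isOpenEmb_val X').inv_apply _ (mem_univ _)]

theorem isClosed_pre (sm : IsSmall X Z f A) : IsClosed {x : RegT X | f x.val ∈ A} :=
  sm.isClosed.preimage (sm.cont.comp RegT.continuous_val)

/-- transfer of the rank on the complements -/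
theorem rank_compl (hX : StXfer) (sm : IsSmall X Z f A) (sm' : IsSmall X' Z f' A)
    (y0 : RegT X) (y0' : RegT X') {ρ : ℕ} (hρ : RankOn (RegT X) univ ρ) :
    RankOn (RegT X') {x | f' x.val ∈ A}ᶜ ρ := by
  set U : Set (RegT X) := {x | f x.val ∉ A} with hU
  have hUo : IsOpen U := (isClosed_pre sm).isOpen_compl
  obtain ⟨ψ, hψ, hψc, hψa⟩ := exists_map sm sm' y0'
  obtain ⟨φ, hφ, hφc, hφa⟩ := exists_map sm' sm y0
  refine hX (RegT X') (RegT X) {x | f' x.val ∈ A}ᶜ U φ ψ (isClosed_pre sm').isOpen_compl hUo hφc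
    hψc ?_ ?_ ?_ ?_ ?_ ?_ ρ (RankOn.mono' hρ (subset_univ _))
  · intro x hx
    show f (φ x).val ∉ A
    rw [hφ x hx, sm.sec_eq]; exact hx
  · intro x hx
    show ¬ f' (ψ x).val ∈ A
    rw [hψ x hx, sm'.sec_eq]; exact hx
  · intro x hx
    refine RegT.val_injective ?_
    have h2 : f (φ x).val ∉ A := by rw [hφ x hx, sm.sec_eq]; exact hx
    rw [hψ _ h2, hφ x hx, sm.sec_eq]
    exact sm'.sec_apply hx
  · intro x hx
    refine RegT.val_injective ?_
    have h2 : f' (ψ x).val ∉ A := by rw [hψ x hx, sm'.sec_eq]; exact hx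
    rw [hφ _ h2, hψ x hx, sm'.sec_eq]
    exact sm.sec_apply hx
  · intro y hy e e' he he'
    exact hφa y hy e e' he he'
  · intro y hy e e' he he'
    exact hψa y hy e' e he' he

theorem rank_empty (h : ¬ Nonempty (RegT X')) : RankOn (RegT X') univ 0 := by
  intro n a b ha hb
  have h1 : (Matrix.of fun i j => pr (RegT X') (a i) (b j)) = 0 := by
    ext i j
    show pr (RegT X') (a i) (b j) = 0
    have h2 : ∀ y : RegT X', False := fun y => h ⟨y⟩
    unfold pr intM
    have : IsEmpty (RegT X') := ⟨h2⟩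
    simp only [Vale.Agent.P267.H928.Int.intForm, Vale.Agent.P267.H928.Int.Pou.integ]
    exact MeasureTheory.integral_of_isEmpty
  rw [h1, Matrix.rank_zero]

end

/-- components in the regular locus -/
theorem comp_reg {X : CSp} {S T : Set X.pt} (hreg : ∀ x ∈ S \ T, IsReg 4 X x) (y0 : RegT X)
    {k : ℕ} (c : Fin k → X.pt) (hc : ∀ x ∈ S \ T, ∃ i, x ∈ connectedComponentIn (S \ T) (c i)) :
    ∃ c' : Fin k → RegT X, ∀ x ∈ (RegT.val : RegT X → X.pt) ⁻¹' S \ RegT.val ⁻¹' T,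
      ∃ i, x ∈ connectedComponentIn (RegT.val ⁻¹' S \ RegT.val ⁻¹' T) (c' i) := by
  classical
  let c' : Fin k → RegT X := fun i => if h : IsReg 4 X (c i) then ⟨c i, h⟩ else y0
  refine ⟨c', fun x hx => ?_⟩
  obtain ⟨i, hi⟩ := hc x.val hx
  refine ⟨i, ?_⟩
  have hci : c i ∈ S \ T := connectedComponentIn_nonempty_iff.1 ⟨_, hi⟩
  have hcr : IsReg 4 X (c i) := hreg _ hci
  have hc' : (c' i).val = c i := by
    have : c' i = ⟨c i, hcr⟩ := dif_pos hcr
    rw [this]; rfl
  set K := connectedComponentIn (S \ T) (c i) with hK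
  have hKc : IsPreconnected K := isPreconnected_connectedComponentIn
  have hKsub : K ⊆ S \ T := connectedComponentIn_subset _ _
  have hKc' : IsPreconnected ((RegT.val : RegT X → X.pt) ⁻¹' K) := by
    refine (RegT.isOpenEmbedding_val.isInducing.isPreconnected_image).1 ?_
    rwa [image_preimage_eq_of_subset]
    intro y hy
    exact ⟨⟨y, hreg y (hKsub hy)⟩, rfl⟩
  have h2 : (RegT.val : RegT X → X.pt) ⁻¹' K ⊆
      connectedComponentIn (RegT.val ⁻¹' S \ RegT.val ⁻¹' T) (c' i) := by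
    refine hKc'.subset_connectedComponentIn ?_ ?_
    · show (c' i).val ∈ K
      rw [hc']; exact mem_connectedComponentIn hci
    · intro y hy; exact hKsub hy
  exact h2 hi

/-- passing from the complement of a two-dimensional analytic set to the regular locus -/
theorem rank_an (hS : StStep) (hL1 : StL1) (hL3 : StL3) {X : CSp} {S : Set X.pt}
    (hSan : IsAn X univ S) (hS2 : DimLe X 2 S) (hreg : DimLe X 1 {x | ¬ IsReg 4 X x})
    (y0 : RegT X) {ρ : ℕ} (h1 : RankOn (RegT X) (RegT.val ⁻¹' S)ᶜ ρ) :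
    ∃ ρ, RankOn (RegT X) univ ρ := by
  set T : Set X.pt := {x | x ∈ S ∧ ¬ (IsReg 4 X x ∧ IsSurfX X S x)} with hT
  have hT1 : DimLe X 1 T := by
    refine (hreg.union (hL1 X S hSan hS2)).mono ?_
    rintro x ⟨hxS, hx⟩
    by_cases h2 : IsReg 4 X x
    · exact Or.inr ⟨hxS, fun h3 => hx ⟨h2, h3⟩⟩
    · exact Or.inl h2
  have hScl : IsClosed S := isClosed_of_isAn hSan
  have hTcl : IsClosed T := by
    rw [← isOpen_compl_iff, isOpen_iff_mem_nhds]
    intro x hx
    by_cases hxS : x ∈ S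
    · have h2 : IsReg 4 X x ∧ IsSurfX X S x := by
        by_contra h3; exact hx ⟨hxS, h3⟩
      filter_upwards [(RegT.isOpen_reg X).mem_nhds h2.1, isSurfX_open h2.2] with y hy1 hy2 hy3
      exact hy3.2 ⟨hy1, hy2 hy3.1⟩
    · filter_upwards [hScl.isOpen_compl.mem_nhds hxS] with y hy hy2
      exact hy hy2.1
  have hST : ∀ x ∈ S \ T, IsReg 4 X x ∧ IsSurfX X S x := by
    rintro x ⟨hxS, hxT⟩
    by_contra h2
    exact hxT ⟨hxS, h2⟩
  obtain ⟨k, c, hc⟩ := hL3 X S T hSan hS2 hTcl (fun x hx => hx.1) hT1 (fun x hx => (hST x hx).2)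
  obtain ⟨c', hc'⟩ := comp_reg (fun x hx => (hST x hx).1) y0 c hc
  refine ⟨ρ + 2 * k, hS (RegT X) (RegT.val ⁻¹' S) (RegT.val ⁻¹' T)
    (hScl.preimage RegT.continuous_val) (hTcl.preimage RegT.continuous_val)
    (fun x hx => hx.1) (negl_of_dimLe hT1 (by norm_num)) (negl_of_dimLe hS2 (by norm_num))
    ?_ k c' hc' ρ h1⟩
  intro x hx
  exact isSurfAt_of (hST x.val hx).2

/-- transfer of the rank through a flip -/
theorem rank_flip (hX : StXfer) (hS : StStep) (hL1 : StL1) (hL3 : StL3) {X Z X' : CSp}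
    {f : X.pt → Z.pt} {f' : X'.pt → Z.pt} {A : Set Z.pt} {L : Bd X.pt} {L' : Bd X'.pt}
    (F : IsFlip X Z X' f f' A L L') (hreg : DimLe X' 1 {x | ¬ IsReg 4 X' x})
    (hρ : ∃ ρ, RankOn (RegT X) univ ρ) : ∃ ρ, RankOn (RegT X') univ ρ := by
  obtain ⟨ρ, hρ⟩ := hρ
  have sm := F.small
  have sm' := F.small'
  by_cases hne' : Nonempty (RegT X')
  swap
  · exact ⟨0, rank_empty hne'⟩
  obtain ⟨y0'⟩ := hne'
  obtain ⟨y0⟩ : Nonempty (RegT X) := by
    obtain ⟨x, hx⟩ := F.normal.dense.nonempty_iff.2 ⟨sm.sec (f' y0'.val)⟩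
    exact ⟨⟨x, hx⟩⟩
  have h1 := rank_compl hX sm sm' y0 y0' hρ
  refine rank_an hS hL1 hL3 (S := f' ⁻¹' A) ?_ sm'.dim hreg y0' h1
  have h2 : IsAn X' (f' ⁻¹' univ) (f' ⁻¹' A) := IsAn.preimage (fun x => sm'.holMap x) sm'.an
  simpa using h2

/-- Theorem R∞ -/
theorem stRinf_of (hRC : StRkCpt) (hRR : StRkRes) (hX : StXfer) (hS : StStep) (hB : StBlock)
    (hL1 : StL1) (hL3 : StL3) : StRinf := by
  intro W _ _ _ _ _ X Z p O hp f f' A L L' hflip hreg n
  have : SecondCountableTopology W := ChartedSpace.secondCountable_of_sigmaCompact (Cm 4) W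
  have h0 : ∃ ρ, RankOn (RegT (X 0)) univ ρ := by
    obtain ⟨ρ, hρ⟩ := hRC W
    exact ⟨ρ, hRR W (X 0) p O hp ρ hρ⟩
  have h1 : ∀ j, ∃ ρ, RankOn (RegT (X j)) univ ρ := by
    intro j
    induction j with
    | zero => exact h0
    | succ j ih => exact rank_flip hX hS hL1 hL3 (hflip j) (hreg (j + 1)) ih
  by_contra hcon
  push Not at hcon
  obtain ⟨ρ, hρ⟩ := h1 n
  have h2 := hB (ρ + 1) (fun j => X (n + j)) (fun j => Z (n + j)) (fun j => f (n + j))
    (fun j => f' (n + j)) (fun j => A (n + j)) (fun j => L (n + j)) (fun j => L' (n + j))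
    (fun j _ => hflip (n + j)) (hreg n) (fun j _ => hcon (n + j) (Nat.le_add_right n j)) ρ hρ
  omega

end Vale.Agent.P277.H619
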