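import Vale.Agent.P277.A.Emb

/-!
# P277: the regular locus of a compact complex space as a complex manifold
-/

open scoped Manifold ContDiff Topology
open Vale.Agent.P272.K Vale.Agent.P285.H281.FD Set

noncomputable section

namespace Vale.Agent.P277

/-- The regular locus of `X` (points near which `X` is a manifold of dimension four). -/
def RegT (X : CSp) : Type := {x : X.pt // IsReg 4 X x}

namespace RegT

variable {X : CSp}

instance : TopologicalSpace (RegT X) := inferInstanceAs (TopologicalSpace {x : X.pt // IsReg 4 X x})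
instance : T2Space (RegT X) := inferInstanceAs (T2Space {x : X.pt // IsReg 4 X x})
instance : SecondCountableTopology (RegT X) :=
  TopologicalSpace.Subtype.secondCountableTopology {x : X.pt | IsReg 4 X x}

/-- The inclusion. -/
def val (x : RegT X) : X.pt := x.1

theorem val_injective : Function.Injective (val : RegT X → X.pt) := Subtype.val_injective

theorem continuous_val : Continuous (val : RegT X → X.pt) := continuous_subtype_val

theorem isOpen_reg (X : CSp) : IsOpen {x : X.pt | IsReg 4 X x} := by
  rw [isOpen_iff_mem_nhds]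
  rintro x ⟨V, Ω, h, φ, hx, hm⟩
  refine Filter.mem_of_superset (hm.isOpen.mem_nhds hx) fun y hy => ⟨V, Ω, h, φ, hy, hm⟩

theorem isOpenEmbedding_val : Topology.IsOpenEmbedding (val : RegT X → X.pt) :=
  (isOpen_reg X).isOpenEmbedding_subtypeVal

/-- The charts of the regular locus: the local homeomorphisms with `ℂ⁴` which identify the
holomorphic functions. -/
def IsCh (e : OpenPartialHomeomorph (RegT X) (Cm 4)) : Prop :=
  ∀ x ∈ e.source, ∀ g : X.pt → ℂ, X.Hol g x.val ↔ AnalyticAt ℂ (fun z => g (e.symm z).val) (e x)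

theorem exists_isCh (x : RegT X) : ∃ e : OpenPartialHomeomorph (RegT X) (Cm 4),
    x ∈ e.source ∧ IsCh e := by
  classical
  obtain ⟨V, Ω, h, φ, hx, hm⟩ := x.2
  have hreg : ∀ y ∈ V, IsReg 4 X y := fun y hy => ⟨V, Ω, h, φ, hy, hm⟩
  have himg : φ '' V = Ω := by
    rw [hm.image]; ext z; simp
  have hinj : InjOn φ V := hm.injOn
  have hcont : ContinuousOn φ V := hm.continuousOn
  -- inverse
  have hsurj : ∀ z ∈ Ω, ∃ y ∈ V, φ y = z := fun z hz => by rw [← himg] at hz; exact hz
  let inv : Cm 4 → RegT X := fun z => if hz : z ∈ Ω then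
    ⟨(hsurj z hz).choose, hreg _ (hsurj z hz).choose_spec.1⟩ else x
  have hinv : ∀ z ∈ Ω, (inv z).val ∈ V ∧ φ (inv z).val = z := by
    intro z hz
    have h1 : (inv z).val = (hsurj z hz).choose := by
      have h2 : inv z = ⟨(hsurj z hz).choose, hreg _ (hsurj z hz).choose_spec.1⟩ := dif_pos hz
      rw [h2]; rfl
    rw [h1]; exact (hsurj z hz).choose_spec
  have hopen : ∀ W : Set X.pt, IsOpen W → IsOpen (φ '' (V ∩ W)) := by
    intro W hW
    obtain ⟨U, hU, hUW⟩ := (hm.emb.isInducing.isOpen_iff).1 (hW.preimage continuous_subtype_val :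
      IsOpen ((Subtype.val : V → X.pt) ⁻¹' W))
    have : φ '' (V ∩ W) = U ∩ Ω := by
      ext z
      constructor
      · rintro ⟨y, ⟨hyV, hyW⟩, rfl⟩
        refine ⟨?_, himg ▸ mem_image_of_mem _ hyV⟩
        have : (⟨y, hyV⟩ : V) ∈ (V.domRestrict φ) ⁻¹' U := by rw [hUW]; exact hyW
        exact this
      · rintro ⟨hzU, hz⟩
        obtain ⟨y, hyV, rfl⟩ := hsurj z hz
        have : (⟨y, hyV⟩ : V) ∈ (V.domRestrict φ) ⁻¹' U := hzU
        rw [hUW] at this
        exact ⟨y, ⟨hyV, this⟩, rfl⟩
    rw [this]
    exact hU.inter hm.isOpen'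
  let e : OpenPartialHomeomorph (RegT X) (Cm 4) :=
    { toFun := fun y => φ y.val
      invFun := inv
      source := {y | y.val ∈ V}
      target := Ω
      map_source' := fun y hy => himg ▸ mem_image_of_mem _ hy
      map_target' := fun z hz => (hinv z hz).1
      left_inv' := fun y hy => by
        have hz : φ y.val ∈ Ω := himg ▸ mem_image_of_mem _ hy
        exact val_injective (hinj (hinv _ hz).1 hy (hinv _ hz).2)
      right_inv' := fun z hz => (hinv z hz).2
      open_source := hm.isOpen.preimage continuous_val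
      open_target := hm.isOpen'
      continuousOn_toFun := hcont.comp continuous_val.continuousOn fun y hy => hy
      continuousOn_invFun := by
        rw [continuousOn_open_iff hm.isOpen']
        intro W hW
        obtain ⟨W', hW', rfl⟩ := isOpenEmbedding_val.isInducing.isOpen_iff.1 hW
        have : Ω ∩ inv ⁻¹' (val ⁻¹' W') = φ '' (V ∩ W') := by
          ext z
          constructor
          · rintro ⟨hz, hzW⟩
            exact ⟨(inv z).val, ⟨(hinv z hz).1, hzW⟩, (hinv z hz).2⟩
          · rintro ⟨y, ⟨hyV, hyW⟩, rfl⟩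
            have hz : φ y ∈ Ω := himg ▸ mem_image_of_mem _ hyV
            refine ⟨hz, ?_⟩
            have : (inv (φ y)).val = y := hinj (hinv _ hz).1 hyV (hinv _ hz).2
            simpa [this] using hyW
        rw [this]
        exact hopen _ hW' }
  refine ⟨e, hx, ?_⟩
  intro y hy g
  have hyV : y.val ∈ V := hy
  rw [hm.hol y.val hyV g]
  have hz : φ y.val ∈ Ω := himg ▸ mem_image_of_mem _ hyV
  constructor
  · rintro ⟨G, hG, hgG⟩
    refine hG.congr ?_
    have h1 : Filter.Tendsto (fun z => (e.symm z).val) (𝓝 (e y)) (𝓝 y.val) := by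
      have h2 : ContinuousAt e.symm (e y) := e.symm.continuousAt (e.map_source hy)
      have h3 := continuous_val.continuousAt.comp h2
      have h4 : e.symm (e y) = y := e.left_inv hy
      simpa [ContinuousAt, h4, Function.comp_def] using h3
    filter_upwards [h1.eventually hgG, hm.isOpen'.mem_nhds hz] with z hz1 hz2
    rw [hz1]
    show G z = G (φ (inv z).val)
    rw [(hinv z hz2).2]
  · intro hG
    refine ⟨_, hG, ?_⟩
    filter_upwards [hm.isOpen.mem_nhds hyV] with w hw
    have hw' : φ w ∈ Ω := himg ▸ mem_image_of_mem _ hw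
    show g w = g (inv (φ w)).val
    rw [show (inv (φ w)).val = w from hinj (hinv _ hw').1 hw (hinv _ hw').2]

instance : ChartedSpace (Cm 4) (RegT X) where
  atlas := {e | IsCh e}
  chartAt x := (exists_isCh x).choose
  mem_chart_source x := (exists_isCh x).choose_spec.1
  chart_mem_atlas x := (exists_isCh x).choose_spec.2

theorem mem_atlas_iff {e : OpenPartialHomeomorph (RegT X) (Cm 4)} :
    e ∈ atlas (Cm 4) (RegT X) ↔ IsCh e := Iff.rfl

theorem analyticAt_trans {e e' : OpenPartialHomeomorph (RegT X) (Cm 4)} (he : IsCh e)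
    (he' : IsCh e') {x : RegT X} (hx : x ∈ e.source) (hx' : x ∈ e'.source) :
    AnalyticAt ℂ (fun z => e' (e.symm z)) (e x) := by
  classical
  rw [analyticAt_pi_iff]
  intro i
  -- the coordinate as a function on `X`
  let g : X.pt → ℂ := fun p => if hp : IsReg 4 X p then e' (⟨p, hp⟩ : RegT X) i else 0
  have hg : ∀ y : RegT X, g y.val = e' y i := fun y => by
    have : IsReg 4 X y.val := y.2
    simp only [g, dif_pos this]; rfl
  have h1 : X.Hol g x.val := by
    rw [he' x hx' g]
    have h2 : (fun z : Cm 4 => g (e'.symm z).val) =ᶠ[𝓝 (e' x)] fun z => z i := by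
      filter_upwards [e'.open_target.mem_nhds (e'.map_source hx')] with z hz
      rw [hg, e'.right_inv hz]
    refine AnalyticAt.congr ?_ h2.symm
    exact (ContinuousLinearMap.proj (R := ℂ) (φ := fun _ : Fin 4 => ℂ) i).analyticAt _
  rw [he x hx g] at h1
  refine h1.congr (Filter.Eventually.of_forall fun z => ?_)
  exact hg _

instance : IsManifold 𝓘(ℂ, Cm 4) ω (RegT X) := by
  refine isManifold_of_contDiffOn _ _ _ ?_
  intro e e' he he'
  intro z hz
  simp only [mfld_simps] at hz
  simp only [mfld_simps]
  have h1 : z ∈ e.target := hz.1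
  have h2 : e.symm z ∈ e'.source := hz.2
  have := analyticAt_trans he he' (e.map_target h1) h2
  rw [e.right_inv h1] at this
  exact this.contDiffAt.contDiffWithinAt

theorem isOpenEmb_val (X : CSp) : IsOpenEmb X univ (val : RegT X → X.pt) where
  isOpen := isOpen_univ
  cont := continuous_val.continuousOn
  inj := val_injective.injOn
  isOpenMap _ _ hW := isOpenEmbedding_val.isOpenMap _ hW
  hol y _ _ he g := he.1 y he.2 g

end RegT

end Vale.Agent.P277
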