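import Vale.Agent.P277.H615.Step
import Vale.Agent.P277.Stmts5

/-!
# P277: a block of flips with one-dimensional flipped loci
-/

open scoped Manifold ContDiff Topology
open Vale.Agent.P272.K Vale.Agent.P285.H281.FD Vale.Agent.P267.H175 Set

noncomputable section

namespace Vale.Agent.P277.H619

open Vale.Agent.P277

theorem CCF.mono' {k : ℕ} {M : Type} [TopologicalSpace M] [ChartedSpace (Cm 4) M] {U V : Set M}
    {a : Fm k M} (h : CCF U a) (hUV : U ⊆ V) : CCF V a where
  sm := h.sm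
  closed := h.closed
  cpt := by
    obtain ⟨C, hC, hc, ha⟩ := h.cpt
    exact ⟨C, hC.trans hUV, hc, ha⟩

theorem pr_zero_left {M : Type} [TopologicalSpace M] [T2Space M] [SecondCountableTopology M]
    [ChartedSpace (Cm 4) M] [IsManifold 𝓘(ℂ, Cm 4) ω M] (hP : PairProps M) (b : Fm 4 M) :
    pr M 0 b = 0 := by
  have := hP.smul 0 0 b
  rwa [zero_smul, zero_mul] at this

/-- the forms attached to a sequence of flips -/
theorem exists_forms (hD : StD') (hF : StF') (hP : StPair) (Y : Type) [TopologicalSpace Y]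
    [T2Space Y] [SecondCountableTopology Y] [ChartedSpace (Cm 4) Y] [IsManifold 𝓘(ℂ, Cm 4) ω Y]
    (N : ℕ) :
    ∀ (X Z : ℕ → CSp) (O : Set Y) (v : Y → (X 0).pt) (_ : IsOpenEmb (X 0) O v)
      (_ : DimLe (X 0) 1 (v '' O)ᶜ) (f : ∀ j, (X j).pt → (Z j).pt)
      (f' : ∀ j, (X (j + 1)).pt → (Z j).pt) (A : ∀ j, Set (Z j).pt) (L : ∀ j, Bd (X j).pt)
      (L' : ∀ j, Bd (X (j + 1)).pt)
      (_ : ∀ j < N, IsFlip (X j) (Z j) (X (j + 1)) (f j) (f' j) (A j) (L j) (L' j))
      (_ : ∀ j < N, DimLe (X (j + 1)) 1 (f' j ⁻¹' A j)),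
      ∃ (η θ : Fin N → Fm 4 Y), (∀ j, CCF O (η j)) ∧ (∀ j, CCF O (θ j)) ∧
        (∀ i j, j < i → pr Y (θ j) (η i) = 0) ∧ (∀ j, pr Y (θ j) (η j) ≠ 0) := by
  induction N with
  | zero =>
    intro X Z O v _ _ f f' A L L' _ _
    exact ⟨fun j => j.elim0, fun j => j.elim0, fun j => j.elim0, fun j => j.elim0,
      fun j => j.elim0, fun j => j.elim0⟩
  | succ N ih =>
    intro X Z O v hv hd f f' A L L' hflip hdim
    have hf0 := hflip 0 (Nat.succ_pos N)
    have hd0 := hdim 0 (Nat.succ_pos N)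
    obtain ⟨O', v', hv', hd', hO', hA'⟩ := H615.step hf0.small hf0.small' hv hd hd0
    obtain ⟨η', θ', h1, h2, h3, h4⟩ := ih (fun j => X (j + 1)) (fun j => Z (j + 1)) O'
      v' hv' hd' (fun j => f (j + 1)) (fun j => f' (j + 1)) (fun j => A (j + 1))
      (fun j => L (j + 1)) (fun j => L' (j + 1)) (fun j hj => hflip (j + 1) (by omega))
      (fun j hj => hdim (j + 1) (by omega))
    obtain ⟨P, Q, G, s, s', σ, σ', x₀, hout, hGA⟩ := hD Y (X 0) (Z 0) (X 1) (f 0) (f' 0) (A 0)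
      (L 0) (L' 0) hf0 O v hv hd hd0
    obtain ⟨η₀, hη₀, hT⟩ := hF Y (X 0) O v hv hd P Q G s s' σ σ' x₀ hout
    choose C' hC' hC'c hη'z using fun j => (h1 j).cpt
    obtain ⟨θ₀, g1, g2, g3⟩ := hT (⋃ j, C' j)
      (iUnion_subset fun j => (hC' j).trans hO') (isCompact_iUnion hC'c) (by
        rw [Set.disjoint_left]
        rintro _ ⟨y, hy, rfl⟩ hy2
        obtain ⟨j, hj⟩ := mem_iUnion.1 hy
        exact hA' y (hC' j hj) (hGA hy2))
    refine ⟨Fin.cons η₀ η', Fin.cons θ₀ θ', ?_, ?_, ?_, ?_⟩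
    · intro j
      refine Fin.cases ?_ (fun j => ?_) j
      · exact hη₀
      · exact CCF.mono' (h1 j) hO'
    · intro j
      refine Fin.cases ?_ (fun j => ?_) j
      · exact g1
      · exact CCF.mono' (h2 j) hO'
    · intro i j
      refine Fin.cases ?_ (fun i => ?_) i
      · intro h; exact absurd h (Fin.not_lt_zero j)
      · refine Fin.cases ?_ (fun j => ?_) j
        · intro _
          show pr Y θ₀ (η' i) = 0
          rw [(hP Y).congr θ₀ 0 (η' i), pr_zero_left (hP Y)]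
          intro y
          by_cases hy : y ∈ C' i
          · exact Or.inr (g2 y (mem_iUnion.2 ⟨i, hy⟩))
          · exact Or.inl (hη'z i y hy)
        · intro h
          exact h3 i j (Fin.succ_lt_succ_iff.1 h)
    · intro j
      refine Fin.cases ?_ (fun j => ?_) j
      · exact g3
      · exact h4 j

/-- (BLOCK) -/
theorem stBlock_of (hD : StD') (hF : StF') (hP : StPair) : StBlock := by
  intro N X Z f f' A L L' hflip hreg hdim ρ hρ
  have himg : (RegT.val '' (univ : Set (RegT (X 0))))ᶜ = {x | ¬ IsReg 4 (X 0) x} := by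
    ext x
    constructor
    · intro hx h
      exact hx ⟨⟨x, h⟩, mem_univ _, rfl⟩
    · rintro hx ⟨y, -, rfl⟩
      exact hx y.2
  obtain ⟨η, θ, h1, h2, h3, h4⟩ := exists_forms hD hF hP (RegT (X 0)) N X Z univ RegT.val
    (RegT.isOpenEmb_val (X 0)) (by rw [himg]; exact hreg) f f' A L L' hflip hdim
  have hr := hρ N θ η h2 h1
  have hdet : (Matrix.of fun i j => pr (RegT (X 0)) (θ i) (η j)).det ≠ 0 := by
    have ht : (Matrix.of fun i j => pr (RegT (X 0)) (θ i) (η j)).BlockTriangular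
        OrderDual.toDual := by
      intro i j hij
      exact h3 j i hij
    rw [Matrix.det_of_lowerTriangular _ ht]
    exact Finset.prod_ne_zero_iff.2 fun i _ => h4 i
  have hu : IsUnit (Matrix.of fun i j => pr (RegT (X 0)) (θ i) (η j)) :=
    (Matrix.isUnit_iff_isUnit_det _).2 (isUnit_iff_ne_zero.2 hdet)
  rw [Matrix.rank_of_isUnit _ hu, Fintype.card_fin] at hr
  exact hr

end Vale.Agent.P277.H619
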