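import Vale.Agent.P277.H619.Block
import Vale.Agent.P277.H615.Tri

/-!
# P277: the rank of the pairing and a closed subset
-/

open scoped Manifold ContDiff Topology
open Vale.Agent.P272.K Vale.Agent.P285.H281.FD Vale.Agent.P267.H175 Set

noncomputable section

namespace Vale.Agent.P277.H619

open Vale.Agent.P277

/-- linear algebra: a subspace which contains a nontrivial combination of any `k + 1` vectors. -/
theorem exists_proj {n k : ℕ} (S : Submodule ℝ (Fin n → ℝ))
    (h : ∀ t : Fin (k + 1) → Fin n → ℝ, ∃ c : Fin (k + 1) → ℝ, c ≠ 0 ∧ ∑ i, c i • t i ∈ S) :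
    ∃ R : Matrix (Fin n) (Fin n) ℝ, R.rank ≤ k ∧ ∀ i, (fun l => (1 - R) i l) ∈ S := by
  classical
  have hq : Module.finrank ℝ ((Fin n → ℝ) ⧸ S) ≤ k := by
    by_contra hk
    push Not at hk
    obtain ⟨w, hw⟩ := exists_linearIndependent_of_le_finrank (R := ℝ)
      (M := (Fin n → ℝ) ⧸ S) (n := k + 1) hk
    choose t ht using fun i => Submodule.mkQ_surjective S (w i)
    obtain ⟨c, hc, hcS⟩ := h t
    have h1 : ∑ i, c i • w i = 0 := by
      rw [← (Submodule.Quotient.mk_eq_zero S).2 hcS, ← Submodule.mkQ_apply, map_sum]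
      refine Finset.sum_congr rfl fun i _ => ?_
      rw [map_smul, ht]
    have h2 := (Fintype.linearIndependent_iff.1 hw) c h1
    exact hc (funext h2)
  obtain ⟨C, hC⟩ := Submodule.exists_isCompl S
  have hCk : Module.finrank ℝ C ≤ k := by
    rw [← (Submodule.quotientEquivOfIsCompl S C hC).finrank_eq]; exact hq
  let π : (Fin n → ℝ) →ₗ[ℝ] (Fin n → ℝ) :=
    C.subtype.comp (Submodule.projectionOnto C S hC.symm)
  have hπ : ∀ v, v - π v ∈ S := by
    intro v
    have h1 : Submodule.projectionOnto C S hC.symm (v - π v) = 0 := by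
      rw [map_sub]
      show _ - Submodule.projectionOnto C S hC.symm
        ((Submodule.projectionOnto C S hC.symm v : C) : Fin n → ℝ) = 0
      rw [Submodule.projectionOnto_apply_left, sub_self]
    exact (Submodule.projectionOnto_apply_eq_zero_iff hC.symm).1 h1
  refine ⟨(LinearMap.toMatrix' π).transpose, ?_, fun i => ?_⟩
  · rw [Matrix.rank_transpose]
    have h1 : (LinearMap.toMatrix' π).rank = Module.finrank ℝ (LinearMap.range π) := by
      rw [Matrix.rank, ← Matrix.toLin'_apply', Matrix.toLin'_toMatrix']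
    rw [h1]
    refine le_trans ?_ hCk
    refine Submodule.finrank_mono ?_
    rintro _ ⟨v, rfl⟩
    exact (Submodule.projectionOnto C S hC.symm v).2
  · have h1 : (fun l => (1 - (LinearMap.toMatrix' π).transpose) i l) =
        Pi.single i 1 - π (Pi.single i 1) := by
      funext l
      simp [Matrix.one_apply, LinearMap.toMatrix'_apply, Pi.single_apply, eq_comm]
    rw [h1]
    exact hπ _

section

variable {M : Type} [TopologicalSpace M] [T2Space M] [SecondCountableTopology M]
    [ChartedSpace (Cm 4) M] [IsManifold 𝓘(ℂ, Cm 4) ω M]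

theorem CCF.sum {k n : ℕ} {U : Set M} {a : Fin n → Fm k M} (h : ∀ i, CCF U (a i))
    (t : Fin n → ℝ) : CCF U (∑ i, t i • a i) where
  sm := H615.sm_sum t a (fun i => (h i).sm) _
  closed y := by
    rw [H615.dF_sum t a (fun i => (h i).sm), Finset.sum_apply]
    refine Finset.sum_eq_zero fun i _ => ?_
    rw [Pi.smul_apply, (h i).closed, smul_zero]
  cpt := by
    choose C hC hc ha using fun i => (h i).cpt
    refine ⟨⋃ i, C i, iUnion_subset hC, isCompact_iUnion hc, fun y hy => ?_⟩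
    rw [Finset.sum_apply]
    refine Finset.sum_eq_zero fun i _ => ?_
    rw [Pi.smul_apply, ha i y (fun h => hy (mem_iUnion.2 ⟨i, h⟩)), smul_zero]

theorem pr_sum_left (hP : PairProps M) {n : ℕ} {a : Fin n → Fm 4 M} {b : Fm 4 M}
    (ha : ∀ i, CCF univ (a i)) (hb : CCF univ b) (t : Fin n → ℝ) :
    pr M (∑ i, t i • a i) b = ∑ i, t i * pr M (a i) b := by
  obtain ⟨C, -, hC, hb0⟩ := hb.cpt
  exact H615.T_sum (T := fun x => pr M x b) (fun x y hx hy => hP.add x y b C hC
    (fun z => ⟨hx z, hy z, hb.sm z⟩) hb0) (fun c x _ => hP.smul c x b) t a (fun i => (ha i).sm) _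

/-- smooth form with compact support -/
structure SC {k : ℕ} (γ : Fm k M) : Prop where
  sm : ∀ y, SmAt γ y
  cpt : ∃ C, IsCompact C ∧ ∀ y ∉ C, γ y = 0

theorem dF_zero_of {k : ℕ} {C : Set M} (hC : IsCompact C) {γ : Fm k M} (h : ∀ y ∉ C, γ y = 0) :
    ∀ y ∉ C, dF γ y = 0 := by
  intro y hy
  have h1 : γ =ᶠ[𝓝 y] (0 : Fm k M) := by
    filter_upwards [hC.isClosed.isOpen_compl.mem_nhds hy] with x hx
    exact h x hx
  rw [dF_congr h1]
  have := dF_smul (0 : ℝ) (0 : Fm k M) y
  rwa [zero_smul, zero_smul] at this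

theorem CCF.sub_dF {k : ℕ} {a : Fm (k + 1) M} (ha : CCF univ a) {γ : Fm k M} (hγ : SC γ) :
    CCF univ (a - dF γ) := by
  have hneg : a - dF γ = a + (-1 : ℝ) • dF γ := by
    funext y
    show a y - dF γ y = a y + (-1 : ℝ) • dF γ y
    module
  have hsm : ∀ y, SmAt (dF γ) y := fun y => smAt_dF isOpen_univ (fun x _ => hγ.sm x) (mem_univ y)
  rw [hneg]
  refine ⟨fun y => (ha.sm y).add ((hsm y).smul _), fun y => ?_, ?_⟩
  · rw [dF_add (ha.sm y) ((hsm y).smul _), dF_smul, ha.closed, zero_add,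
      dF_dF isOpen_univ (fun x _ => hγ.sm x) (mem_univ y), smul_zero]
  · obtain ⟨C, -, hC, h1⟩ := ha.cpt
    obtain ⟨C', hC', h2⟩ := hγ.cpt
    refine ⟨C ∪ C', subset_univ _, hC.union hC', fun y hy => ?_⟩
    rw [Pi.add_apply, Pi.smul_apply, h1 y fun h => hy (Or.inl h),
      dF_zero_of hC' h2 y fun h => hy (Or.inr h), smul_zero, add_zero]

theorem CCF.compl_of {k : ℕ} {a : Fm k M} (ha : CCF univ a) {E : Set M} (hE : IsClosed E)
    (h0 : ∀ᶠ y in 𝓝ˢ E, a y = 0) : CCF Eᶜ a := by
  refine ⟨ha.sm, ha.closed, ?_⟩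
  obtain ⟨C, -, hC, h1⟩ := ha.cpt
  obtain ⟨V, hV, hEV, hV0⟩ := eventually_nhdsSet_iff_exists.1 h0
  refine ⟨C \ V, fun y hy hyE => hy.2 (hEV hyE), hC.diff hV, fun y hy => ?_⟩
  by_cases hyV : y ∈ V
  · exact hV0 y hyV
  · exact h1 y fun h => hy ⟨h, hyV⟩

theorem pr_sub_dF (hP : PairProps M) {a b : Fm 4 M} (ha : CCF univ a) (hb : CCF univ b)
    {γ : Fm 3 M} (hγ : SC γ) : pr M (a - dF γ) b = pr M a b := by
  have hneg : a - dF γ = a + (-1 : ℝ) • dF γ := by
    funext y
    show a y - dF γ y = a y + (-1 : ℝ) • dF γ y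
    module
  have hsm : ∀ y, SmAt (dF γ) y := fun y => smAt_dF isOpen_univ (fun x _ => hγ.sm x) (mem_univ y)
  obtain ⟨C, -, hC, h1⟩ := hb.cpt
  rw [hneg, hP.add a _ b C hC (fun y => ⟨ha.sm y, (hsm y).smul _, hb.sm y⟩) h1, hP.smul,
    hP.stokes γ b C hC hγ.sm (fun y => ⟨hb.sm y, hb.closed y⟩) (Or.inr h1)]
  ring

theorem rank_add_le' {n : ℕ} (A B : Matrix (Fin n) (Fin n) ℝ) :
    (A + B).rank ≤ A.rank + B.rank := by
  rw [Matrix.rank, Matrix.rank, Matrix.rank, Matrix.mulVecLin_add]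
  refine le_trans (Submodule.finrank_mono (LinearMap.range_add_le _ _)) ?_
  exact Submodule.finrank_add_le_finrank_add_finrank _ _

/-- (STEP) -/
theorem stStep_of (hM : StMove) (hPP : StPair) : StStep := by
  classical
  intro M _ _ _ _ _ E T hE hT hTE hT3 hE5 hsurf k c hc ρ hρ
  have hP := hPP M
  -- the subspace of movable combinations
  have key : ∀ (n : ℕ) (a : Fin n → Fm 4 M), (∀ i, CCF univ (a i)) →
      ∃ R : Matrix (Fin n) (Fin n) ℝ, R.rank ≤ k ∧ ∀ i, ∃ γ : Fm 3 M, SC γ ∧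
        ∀ᶠ y in 𝓝ˢ E, (∑ l, (1 - R) i l • a l) y = dF γ y := by
    intro n a ha
    let S : Submodule ℝ (Fin n → ℝ) :=
      { carrier := {t | ∃ γ : Fm 3 M, SC γ ∧ ∀ᶠ y in 𝓝ˢ E, (∑ l, t l • a l) y = dF γ y}
        zero_mem' := by
          refine ⟨0, ⟨fun y => smAt_zero y, ∅, isCompact_empty, fun y _ => rfl⟩, ?_⟩
          refine Filter.Eventually.of_forall fun y => ?_
          have := dF_smul (0 : ℝ) (0 : Fm 3 M) y
          rw [zero_smul, zero_smul] at this
          simp [this]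
        add_mem' := by
          rintro t t' ⟨γ, hγ, h⟩ ⟨γ', hγ', h'⟩
          refine ⟨γ + γ', ⟨fun y => (hγ.sm y).add (hγ'.sm y), ?_⟩, ?_⟩
          · obtain ⟨C, hC, h1⟩ := hγ.cpt
            obtain ⟨C', hC', h2⟩ := hγ'.cpt
            refine ⟨C ∪ C', hC.union hC', fun y hy => ?_⟩
            rw [Pi.add_apply, h1 y fun h => hy (Or.inl h), h2 y fun h => hy (Or.inr h), add_zero]
          · filter_upwards [h, h'] with y h1 h2
            rw [dF_add (hγ.sm y) (hγ'.sm y), ← h1, ← h2, Finset.sum_apply, Finset.sum_apply,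
              Finset.sum_apply, ← Finset.sum_add_distrib]
            refine Finset.sum_congr rfl fun l _ => ?_
            show (t l + t' l) • a l y = t l • a l y + t' l • a l y
            rw [add_smul]
        smul_mem' := by
          rintro r t ⟨γ, hγ, h⟩
          refine ⟨r • γ, ⟨fun y => (hγ.sm y).smul r, ?_⟩, ?_⟩
          · obtain ⟨C, hC, h1⟩ := hγ.cpt
            exact ⟨C, hC, fun y hy => by rw [Pi.smul_apply, h1 y hy, smul_zero]⟩
          · filter_upwards [h] with y h1
            rw [dF_smul, ← h1, Finset.sum_apply, Finset.sum_apply, Finset.smul_sum]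
            refine Finset.sum_congr rfl fun l _ => ?_
            show (r * t l) • a l y = r • t l • a l y
            rw [mul_smul] }
    obtain ⟨R, hR, h1⟩ := exists_proj (k := k) S (by
      intro t
      obtain ⟨u, γ, hu, hγ, hγc, h2⟩ := hM M E T hE hT hTE hT3 hE5 hsurf k c hc
        (fun i => ∑ l, t i l • a l) (fun i => CCF.sum ha (t i))
      refine ⟨u, hu, γ, ⟨hγ, hγc⟩, ?_⟩
      filter_upwards [h2] with y hy
      rw [← hy]
      have h3 : ∑ l, (∑ i, u i • t i) l • a l = ∑ i, u i • ∑ l, t i l • a l := by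
        simp only [Finset.sum_apply, Pi.smul_apply, smul_eq_mul, Finset.sum_smul, mul_smul]
        rw [Finset.sum_comm]
        refine Finset.sum_congr rfl fun i _ => ?_
        rw [Finset.smul_sum]
      rw [h3]
      simp only [Finset.sum_apply, Pi.smul_apply])
    exact ⟨R, hR, h1⟩
  intro n a b ha hb
  obtain ⟨R, hR, hγ⟩ := key n a ha
  obtain ⟨R', hR', hγ'⟩ := key n b hb
  choose γ hγs hγ using hγ
  choose γ' hγs' hγ' using hγ'
  set N : Matrix (Fin n) (Fin n) ℝ := Matrix.of fun i j => pr M (a i) (b j) with hN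
  have ha' : ∀ i, CCF univ (∑ l, (1 - R) i l • a l) := fun i => CCF.sum ha _
  have hb' : ∀ i, CCF univ (∑ l, (1 - R') i l • b l) := fun i => CCF.sum hb _
  have h1 := hρ n (fun i => (∑ l, (1 - R) i l • a l) - dF (γ i))
    (fun i => (∑ l, (1 - R') i l • b l) - dF (γ' i))
    (fun i => CCF.compl_of (CCF.sub_dF (ha' i) (hγs i)) hE (by
      filter_upwards [hγ i] with y hy; rw [Pi.sub_apply, hy, sub_self]))
    (fun i => CCF.compl_of (CCF.sub_dF (hb' i) (hγs' i)) hE (by
      filter_upwards [hγ' i] with y hy; rw [Pi.sub_apply, hy, sub_self]))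
  have h2 : (Matrix.of fun i j => pr M ((∑ l, (1 - R) i l • a l) - dF (γ i))
      ((∑ l, (1 - R') j l • b l) - dF (γ' j))) = (1 - R) * N * (1 - R').transpose := by
    ext i j
    rw [Matrix.of_apply, pr_sub_dF hP (ha' i) (CCF.sub_dF (hb' j) (hγs' j)) (hγs i), hP.comm,
      pr_sub_dF hP (hb' j) (ha' i) (hγs' j), pr_sum_left hP hb (ha' i)]
    simp only [Matrix.mul_apply, Matrix.transpose_apply, Finset.sum_mul]
    rw [Finset.sum_congr rfl fun l _ => by rw [hP.comm, pr_sum_left hP ha (hb l)]]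
    refine Finset.sum_congr rfl fun l _ => ?_
    rw [Finset.mul_sum]
    refine Finset.sum_congr rfl fun m _ => ?_
    rw [hN, Matrix.of_apply]
    ring
  rw [h2] at h1
  have h3 : N = (1 - R) * N * (1 - R').transpose + ((1 - R) * N) * R'.transpose + R * N := by
    have : (1 - R').transpose = 1 - R'.transpose := by
      rw [Matrix.transpose_sub, Matrix.transpose_one]
    rw [this]
    noncomm_ring
  rw [h3]
  refine (rank_add_le' _ _).trans ?_
  have h4 := rank_add_le' ((1 - R) * N * (1 - R').transpose) (((1 - R) * N) * R'.transpose)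
  have h5 : (((1 - R) * N) * R'.transpose).rank ≤ k :=
    (Matrix.rank_mul_le_right _ _).trans (by rw [Matrix.rank_transpose]; exact hR')
  have h6 : (R * N).rank ≤ k := (Matrix.rank_mul_le_left _ _).trans hR
  omega

end

end Vale.Agent.P277.H619
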