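import Vale.Agent.P277.H619.Pair2
import Vale.Agent.P277.H60.Iface4
import Mathlib.Analysis.SpecialFunctions.Complex.LogDeriv

/-!
# P277: the curvature form of a tuple of functions
-/

set_option maxSynthPendingDepth 3

open scoped ContDiff Topology
open ContinuousAlternatingMap Vale.Agent.P267.H928.Int Vale.Agent.P267.H175
open Vale.Agent.P272.K Vale.Agent.P277.H60

noncomputable section

namespace Vale.Agent.P277.H619

open Vale.Agent.P277

variable {E : Type} [NormedAddCommGroup E] [NormedSpace ℝ E]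

/-- `∑ |a m|²` -/
def rho {n : ℕ} (a : Fin n → E → ℂ) (z : E) : ℝ := ∑ m, Complex.normSq (a m z)

/-- `∑ (Re a dIm a - Im a dRe a)` -/
def lam {n : ℕ} (a : Fin n → E → ℂ) (z : E) : E →L[ℝ] ℝ :=
  ∑ m, ((a m z).re • (Complex.imCLM ∘L fderiv ℝ (a m) z) -
    (a m z).im • (Complex.reCLM ∘L fderiv ℝ (a m) z))

/-- the connection form -/
def alp {n : ℕ} (a : Fin n → E → ℂ) (z : E) : E →L[ℝ] ℝ := (rho a z)⁻¹ • lam a z

/-- `Im (du / u)` -/
def lgd (u : E → ℂ) (z : E) : E →L[ℝ] ℝ :=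
  Complex.imCLM ∘L ((u z)⁻¹ • fderiv ℝ u z)

theorem rho_pos {n : ℕ} {a : Fin n → E → ℂ} {z : E} (h : ∃ m, a m z ≠ 0) : 0 < rho a z := by
  obtain ⟨m, hm⟩ := h
  refine Finset.sum_pos' (fun i _ => Complex.normSq_nonneg _) ⟨m, Finset.mem_univ _, ?_⟩
  exact Complex.normSq_pos.2 hm

theorem alp_smul {n : ℕ} {a b : Fin n → E → ℂ} {u : E → ℂ} {z : E}
    (hb : ∀ m, b m =ᶠ[𝓝 z] fun w => u w * a m w) (hu : DifferentiableAt ℝ u z)
    (ha : ∀ m, DifferentiableAt ℝ (a m) z) (hu0 : u z ≠ 0) (h0 : ∃ m, a m z ≠ 0) :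
    alp b z = lgd u z + alp a z := by
  have hr := (rho_pos h0).ne'
  have h1 : ∀ m, b m z = u z * a m z := fun m => (hb m).self_of_nhds
  have h2 : ∀ m, fderiv ℝ (b m) z = u z • fderiv ℝ (a m) z + a m z • fderiv ℝ u z := by
    intro m
    rw [(hb m).fderiv_eq]
    exact fderiv_fun_mul hu (ha m)
  have h3 : rho b z = Complex.normSq (u z) * rho a z := by
    simp only [rho, h1, Complex.normSq_mul, Finset.mul_sum]
  have hn : Complex.normSq (u z) ≠ 0 := (Complex.normSq_pos.2 hu0).ne'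
  ext v
  have h4 : lam b z v = Complex.normSq (u z) * lam a z v +
      rho a z * ((u z).re * (fderiv ℝ u z v).im - (u z).im * (fderiv ℝ u z v).re) := by
    simp only [lam, rho, _root_.sum_apply, Finset.mul_sum, Finset.sum_mul,
      ← Finset.sum_add_distrib]
    refine Finset.sum_congr rfl fun m _ => ?_
    rw [h1, h2]
    simp only [_root_.sub_apply, _root_.smul_apply, ContinuousLinearMap.comp_apply,
      Complex.imCLM_apply, Complex.reCLM_apply, _root_.add_apply, smul_eq_mul, Complex.mul_re,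
      Complex.mul_im, Complex.add_re, Complex.add_im, Complex.normSq_apply]
    ring
  show (rho b z)⁻¹ * lam b z v = lgd u z v + (rho a z)⁻¹ * lam a z v
  rw [h3, h4]
  have h5 : lgd u z v = (Complex.normSq (u z))⁻¹ *
      ((u z).re * (fderiv ℝ u z v).im - (u z).im * (fderiv ℝ u z v).re) := by
    simp only [lgd, ContinuousLinearMap.comp_apply, _root_.smul_apply, smul_eq_mul,
      Complex.imCLM_apply, Complex.mul_im, Complex.inv_re, Complex.inv_im]
    field_simp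
    ring
  rw [h5]
  field_simp
  ring

theorem contDiffAt_re {f : E → ℂ} {z : E} {n : WithTop ℕ∞} (h : ContDiffAt ℝ n f z) :
    ContDiffAt ℝ n (fun w => (f w).re) z := Complex.reCLM.contDiff.contDiffAt.comp z h

theorem contDiffAt_im {f : E → ℂ} {z : E} {n : WithTop ℕ∞} (h : ContDiffAt ℝ n f z) :
    ContDiffAt ℝ n (fun w => (f w).im) z := Complex.imCLM.contDiff.contDiffAt.comp z h

theorem contDiffAt_rho {n : ℕ} {a : Fin n → E → ℂ} {z : E} (ha : ∀ m, ContDiffAt ℝ ∞ (a m) z) :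
    ContDiffAt ℝ ∞ (rho a) z := by
  refine ContDiffAt.sum fun m _ => ?_
  have h1 : (fun w => Complex.normSq (a m w)) =
      fun w => (a m w).re * (a m w).re + (a m w).im * (a m w).im := by
    funext w; rw [Complex.normSq_apply]
  rw [h1]
  exact ((contDiffAt_re (ha m)).mul (contDiffAt_re (ha m))).add
    ((contDiffAt_im (ha m)).mul (contDiffAt_im (ha m)))

theorem contDiffAt_lam {n : ℕ} {a : Fin n → E → ℂ} {z : E} (ha : ∀ m, ContDiffAt ℝ ∞ (a m) z) :
    ContDiffAt ℝ ∞ (lam a) z := by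
  refine ContDiffAt.sum fun m _ => ?_
  have h1 : ContDiffAt ℝ ∞ (fderiv ℝ (a m)) z := (ha m).fderiv_right (m := ∞) (by simp)
  exact ((contDiffAt_re (ha m)).smul (contDiffAt_const.clm_comp h1)).sub
    ((contDiffAt_im (ha m)).smul (contDiffAt_const.clm_comp h1))

theorem contDiffAt_alp {n : ℕ} {a : Fin n → E → ℂ} {z : E} (ha : ∀ m, ContDiffAt ℝ ∞ (a m) z)
    (h0 : ∃ m, a m z ≠ 0) : ContDiffAt ℝ ∞ (alp a) z :=
  ((contDiffAt_rho ha).inv (rho_pos h0).ne').smul (contDiffAt_lam ha)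

/-- `Im (du / u)` is locally exact. -/
theorem lgd_eq {u : E → ℂ} {z : E} (hu : ContDiffAt ℝ ∞ u z) (hu0 : u z ≠ 0) :
    ∃ g : E → ℝ, ContDiffAt ℝ ∞ g z ∧ lgd u =ᶠ[𝓝 z] fderiv ℝ g := by
  have hsl : ∀ᶠ w in 𝓝 z, u w / u z ∈ Complex.slitPlane := by
    have h1 : ContinuousAt (fun w => u w / u z) z := hu.continuousAt.div_const _
    have h2 : u z / u z ∈ Complex.slitPlane := by
      rw [div_self hu0]; exact Complex.one_mem_slitPlane
    exact h1.eventually (Complex.isOpen_slitPlane.mem_nhds h2)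
  have hsm : ∀ᶠ w in 𝓝 z, ContDiffAt ℝ 1 u w :=
    (hu.of_le (m := 1) (by simp)).eventually (by simp)
  refine ⟨fun w => (Complex.log (u w / u z)).im, ?_, ?_⟩
  · refine contDiffAt_im (f := fun w => Complex.log (u w / u z)) ?_
    have h1 : ContDiffAt ℝ ∞ (fun w => u w / u z) z := hu.div_const _
    have h2 : ContDiffAt ℝ ∞ Complex.log (u z / u z) :=
      (Complex.contDiffAt_log (n := ∞) hsl.self_of_nhds).restrict_scalars ℝ
    exact h2.comp z h1
  · filter_upwards [hsl, hsm] with w hw hd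
    have h1 : HasFDerivAt (fun w => u w / u z) ((u z)⁻¹ • fderiv ℝ u w) w := by
      have := (hd.differentiableAt (by simp)).hasFDerivAt.mul_const (u z)⁻¹
      simpa [div_eq_mul_inv] using this
    have h2 := (((Complex.hasDerivAt_log hw).hasFDerivAt.restrictScalars ℝ).comp w h1)
    have h3 := Complex.imCLM.hasFDerivAt.comp w h2
    have h4 : fderiv ℝ (fun w => (Complex.log (u w / u z)).im) w = _ := h3.fderiv
    rw [h4, lgd]
    congr 1
    ext v
    have hne : u w ≠ 0 := by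
      intro h; rw [h, zero_div] at hw; exact Complex.zero_notMem_slitPlane hw
    simp only [_root_.smul_apply, smul_eq_mul, ContinuousLinearMap.comp_apply,
      ContinuousLinearMap.coe_restrictScalars', ContinuousLinearMap.toSpanSingleton_apply]
    field_simp

theorem lgd_symm {u : E → ℂ} {z : E} (hu : ContDiffAt ℝ ∞ u z) (hu0 : u z ≠ 0) (v w : E) :
    fderiv ℝ (lgd u) z v w = fderiv ℝ (lgd u) z w v := by
  obtain ⟨g, hg, he⟩ := lgd_eq hu hu0
  rw [he.fderiv_eq]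
  exact (hg.isSymmSndFDerivAt minS) v w

theorem contDiffAt_lgd {u : E → ℂ} {z : E} (hu : ContDiffAt ℝ ∞ u z) (hu0 : u z ≠ 0) :
    ContDiffAt ℝ ∞ (lgd u) z := by
  obtain ⟨g, hg, he⟩ := lgd_eq hu hu0
  exact (hg.fderiv_right (m := ∞) (by simp)).congr_of_eventuallyEq he

/-- change of frame -/
theorem W2_change {n k : ℕ} {a b : Fin n → E → ℂ} {u : E → ℂ} {z : E}
    (hb : ∀ m, b m =ᶠ[𝓝 z] fun w => u w * a m w) (hu : ContDiffAt ℝ ∞ u z)
    (ha : ∀ m, ContDiffAt ℝ ∞ (a m) z) (hu0 : u z ≠ 0) (h0 : ∃ m, a m z ≠ 0)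
    (β : E [⋀^Fin k]→L[ℝ] ℝ) :
    W2 (fderiv ℝ (alp b) z) β = W2 (fderiv ℝ (alp a) z) β := by
  have h1 : alp b =ᶠ[𝓝 z] fun w => lgd u w + alp a w := by
    obtain ⟨m, hm⟩ := h0
    have e1 : ∀ᶠ w in 𝓝 z, ∀ m, b m =ᶠ[𝓝 w] fun w => u w * a m w :=
      Filter.eventually_all.2 fun m => (hb m).eventually_nhds
    have e2 : ∀ᶠ w in 𝓝 z, ∀ m, ContDiffAt ℝ 1 (a m) w :=
      Filter.eventually_all.2 fun m => ((ha m).of_le (m := 1) (by simp)).eventually (by simp)
    have e3 : ∀ᶠ w in 𝓝 z, ContDiffAt ℝ 1 u w := (hu.of_le (m := 1) (by simp)).eventually (by simp)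
    have e4 : ∀ᶠ w in 𝓝 z, u w ≠ 0 := hu.continuousAt.eventually_ne hu0
    have e5 : ∀ᶠ w in 𝓝 z, a m w ≠ 0 := (ha m).continuousAt.eventually_ne hm
    filter_upwards [e1, e2, e3, e4, e5] with w h1 h2 h3 h4 h5
    exact alp_smul h1 (h3.differentiableAt (by simp)) (fun m => (h2 m).differentiableAt (by simp))
      h4 ⟨m, h5⟩
  have h2 : fderiv ℝ (alp b) z = fderiv ℝ (lgd u) z + fderiv ℝ (alp a) z := by
    rw [h1.fderiv_eq]
    exact fderiv_fun_add ((contDiffAt_lgd hu hu0).differentiableAt (by simp))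
      ((contDiffAt_alp ha h0).differentiableAt (by simp))
  rw [h2, W2_add, W2_symm (lgd_symm hu hu0), zero_add]

end Vale.Agent.P277.H619
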