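import Vale.Agent.P277.A.Emb
import Vale.Agent.P277.Stmts2

/-!
# P277, package D: functions and sections on the two sides of a flip
-/

open scoped Manifold ContDiff Topology
open Vale.Agent.P272.K Vale.Agent.P285.H281.FD Set Filter

noncomputable section

namespace Vale.Agent.P277.H619

open Vale.Agent.P277

/-! ### line bundles -/

section lb

variable {X : CSp} {L : Bd X.pt}

theorem g_self (h : IsLBx X L) {i : L.ι} {x : X.pt} (hi : x ∈ L.U i) : L.g i i x = 1 := by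
  have h1 := h.cocycle i i i x hi hi hi
  exact mul_left_cancel₀ (h.ne_zero i i x hi hi) (by rw [h1, mul_one])

theorem g_symm (h : IsLBx X L) {i j : L.ι} {x : X.pt} (hi : x ∈ L.U i) (hj : x ∈ L.U j) :
    L.g i j x * L.g j i x = 1 := by
  rw [h.cocycle i j i x hi hj hi, g_self h hi]

theorem lb_inv (h : IsLBx X L) : IsLBx X (Bd.inv L) where
  isOpen := h.isOpen
  cover := h.cover
  holo i j x hi hj := hol_inv (h.holo i j x hi hj) (h.ne_zero i j x hi hj)
  ne_zero i j x hi hj := inv_ne_zero (h.ne_zero i j x hi hj)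
  cocycle i j k x hi hj hk := by
    show (L.g i j x)⁻¹ * (L.g j k x)⁻¹ = (L.g i k x)⁻¹
    rw [← mul_inv, h.cocycle i j k x hi hj hk]

theorem lb_pow (h : IsLBx X L) (k : ℕ) : IsLBx X (L.pow k) where
  isOpen := h.isOpen
  cover := h.cover
  holo i j x hi hj := hol_pow (h.holo i j x hi hj) k
  ne_zero i j x hi hj := pow_ne_zero k (h.ne_zero i j x hi hj)
  cocycle i j l x hi hj hk := by
    show L.g i j x ^ k * L.g j l x ^ k = L.g i l x ^ k
    rw [← mul_pow, h.cocycle i j l x hi hj hk]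

theorem inv_inv_bd : Bd.inv (Bd.inv L) = L := by
  cases L
  simp [Bd.inv]

theorem secx_mono {V W : Set X.pt} (hWV : W ⊆ V) {s : L.ι → X.pt → ℂ} (h : IsSecx X V L s) :
    IsSecx X W L s :=
  ⟨fun i x hx => h.holo i x (hWV hx), fun i j x hx => h.change i j x (hWV hx)⟩

theorem zs_iff {V : Set X.pt} {s : L.ι → X.pt → ℂ} (h : IsSecx X V L s) (hL : IsLBx X L)
    {x : X.pt} (hx : x ∈ V) {i : L.ι} (hi : x ∈ L.U i) : x ∈ Zs L s ↔ s i x = 0 := by
  constructor
  · rintro ⟨j, hj, h0⟩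
    rw [h.change i j x hx hi hj, h0, mul_zero]
  · intro h0
    exact ⟨i, hi, h0⟩

/-- a section of `L` without zeros on `V` has an inverse -/
theorem secx_inv {V : Set X.pt} {k : ℕ} {s : L.ι → X.pt → ℂ}
    (h : IsSecx X V (L.pow k) s) (hn : ∀ i, ∀ x ∈ V, x ∈ L.U i → s i x ≠ 0) :
    IsSecx X V ((Bd.inv L).pow k) (fun i x => (s i x)⁻¹) where
  holo i x hx hi := hol_inv (h.holo i x hx hi) (hn i x hx hi)
  change i j x hx hi hj := by
    show (s i x)⁻¹ = (L.g i j x)⁻¹ ^ k * (s j x)⁻¹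
    have h1 : s i x = L.g i j x ^ k * s j x := h.change i j x hx hi hj
    rw [h1, mul_inv, inv_pow]

end lb

/-! ### the symmetric data of a flip -/

/-- The symmetric part of the data of a flip. -/
structure Pr (X Z X' : CSp) (f : X.pt → Z.pt) (f' : X'.pt → Z.pt) (A : Set Z.pt)
    (L : Bd X.pt) (L' : Bd X'.pt) (t : L.ι → L'.ι → Z.pt → ℂ) : Prop where
  nX : IsNormal 4 X
  nZ : IsNormal 4 Z
  nX' : IsNormal 4 X'
  sm : IsSmall X Z f A
  sm' : IsSmall X' Z f' A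
  lb : IsLBx X L
  lb' : IsLBx X' L'
  iso : IsIso f f' A L L' t

variable {X Z X' : CSp} {f : X.pt → Z.pt} {f' : X'.pt → Z.pt} {A : Set Z.pt} {L : Bd X.pt}
  {L' : Bd X'.pt} {t : L.ι → L'.ι → Z.pt → ℂ}

theorem Pr.symm (H : Pr X Z X' f f' A L L' t) :
    Pr X' Z X f' f A L' L (fun j i z => (t i j z)⁻¹) where
  nX := H.nX'
  nZ := H.nZ
  nX' := H.nX
  sm := H.sm'
  sm' := H.sm
  lb := H.lb'
  lb' := H.lb
  iso :=
    { holo := by
        intro x' x j i hx' hx hj hi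
        have h1 := H.iso.holo x x' i j (by rw [hx]; exact hx') hx.symm hi hj
        rw [hx] at h1
        exact ⟨hol_inv h1.1 h1.2, inv_ne_zero h1.2⟩
      change := by
        intro x' x j j₁ i i₁ hx' hx hj hj₁ hi hi₁
        have h1 := H.iso.change x x' i i₁ j j₁ (by rw [hx]; exact hx') hx.symm hi hi₁ hj hj₁
        have h2 := H.iso.holo x x' i j (by rw [hx]; exact hx') hx.symm hi hj
        rw [hx] at h1 h2
        have e1 := g_symm H.lb hi hi₁
        have e2 := g_symm H.lb' hj hj₁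
        have n1 := H.lb.ne_zero i i₁ x hi hi₁
        have n2 := H.lb'.ne_zero j₁ j x' hj₁ hj
        show (t i₁ j₁ (f' x'))⁻¹ = L'.g j j₁ x' * (t i j (f' x'))⁻¹ * L.g i₁ i x
        rw [h1]
        have n3 : t i j (f' x') ≠ 0 := h2.2
        field_simp
        linear_combination (-1 : ℂ) * e1 - L.g i i₁ x * L.g i₁ i x * e2 }

theorem Pr.dual (H : Pr X Z X' f f' A L L' t) :
    Pr X Z X' f f' A (Bd.inv L) (Bd.inv L') (fun i j z => (t i j z)⁻¹) where
  nX := H.nX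
  nZ := H.nZ
  nX' := H.nX'
  sm := H.sm
  sm' := H.sm'
  lb := lb_inv H.lb
  lb' := lb_inv H.lb'
  iso :=
    { holo := fun x x' i j hx hx' hi hj => by
        have h1 := H.iso.holo x x' i j hx hx' hi hj
        exact ⟨hol_inv h1.1 h1.2, inv_ne_zero h1.2⟩
      change := fun x x' i i₁ j j₁ hx hx' hi hi₁ hj hj₁ => by
        have h1 := H.iso.change x x' i i₁ j j₁ hx hx' hi hi₁ hj hj₁
        show (t i₁ j₁ (f x))⁻¹ = (L.g i i₁ x)⁻¹ * (t i j (f x))⁻¹ * (L'.g j₁ j x')⁻¹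
        rw [h1, mul_inv, mul_inv] }

theorem Pr.of_flip (H : IsFlip X Z X' f f' A L L') : ∃ t, Pr X Z X' f f' A L L' t := by
  obtain ⟨t, ht⟩ := H.iso
  exact ⟨t, H.normal, H.normalZ, H.normal', H.small, H.small', H.lb, H.lb', ht⟩

/-! ### functions -/

theorem dense_off (nX : IsNormal 4 X) (sm : IsSmall X Z f A) : Dense (f ⁻¹' A)ᶜ :=
  dense_compl_of_dimLe (by norm_num) nX.dense sm.dim

theorem dimLe_A (sm : IsSmall X Z f A) : DimLe Z 2 A := by
  refine (sm.dim.image (f := f) fun x _ => sm.holMap x).mono ?_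
  intro z hz
  obtain ⟨x, rfl⟩ := sm.surj z
  exact ⟨x, hz, rfl⟩

theorem an_pre (sm : IsSmall X Z f A) : IsAn X univ (f ⁻¹' A) := by
  have h := sm.an.preimage (f := f) fun x => sm.holMap x
  rwa [preimage_univ] at h

/-- `f_* O_X = O_Z` -/
theorem push (nX : IsNormal 4 X) (nZ : IsNormal 4 Z) (sm : IsSmall X Z f A) {V : Set Z.pt}
    (hV : IsOpen V) {h : X.pt → ℂ} (hh : ∀ x, f x ∈ V → X.Hol h x) :
    ∃ g : Z.pt → ℂ, (∀ z ∈ V, Z.Hol g z) ∧ ∀ x, f x ∈ V → h x = g (f x) := by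
  obtain ⟨g, hg, hg'⟩ := nZ.ext V A hV (sm.an.mono (subset_univ V))
    ((dimLe_A sm).mono inter_subset_right) (h ∘ sm.sec) (by
      rintro z ⟨hzV, hzA⟩
      exact (sm.holMap_sec hzA).2 h (hh _ (by rw [sm.sec_eq]; exact hzV)))
  refine ⟨g, hg, fun x hx => ?_⟩
  have h1 : h =ᶠ[𝓝 x] g ∘ f := by
    refine eventuallyEq_of_dense (dense_off nX sm) (hh x hx) (sm.holo x g (hg _ hx)) ?_
    have h2 : ∀ᶠ y in 𝓝 x, f y ∈ V := sm.cont.continuousAt.eventually_mem (hV.mem_nhds hx)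
    filter_upwards [h2] with y hy hyA
    have h3 := hg' (f y) ⟨hy, hyA⟩
    simp only [Function.comp] at h3 ⊢
    rw [h3, sm.sec_apply hyA]
  exact h1.self_of_nhds

/-- extension of holomorphic functions over `f ⁻¹' A` -/
theorem ext_fun (nX : IsNormal 4 X) (sm : IsSmall X Z f A) {V : Set X.pt} (hV : IsOpen V)
    {h : X.pt → ℂ} (hh : ∀ x ∈ V, f x ∉ A → X.Hol h x) :
    ∃ g : X.pt → ℂ, (∀ x ∈ V, X.Hol g x) ∧ ∀ x ∈ V, f x ∉ A → g x = h x := by
  obtain ⟨g, hg, hg'⟩ := nX.ext V (f ⁻¹' A) hV ((an_pre sm).mono (subset_univ V))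
    (sm.dim.mono inter_subset_right) h (fun x hx => hh x hx.1 hx.2)
  exact ⟨g, hg, fun x hx hxA => hg' x ⟨hx, hxA⟩⟩

/-- equality on a dense set -/
theorem eq_of_off (nX : IsNormal 4 X) (sm : IsSmall X Z f A) {x : X.pt} {g h : X.pt → ℂ}
    (hg : X.Hol g x) (hh : X.Hol h x) (he : ∀ᶠ y in 𝓝 x, f y ∉ A → g y = h y) : g x = h x :=
  (eventuallyEq_of_dense (dense_off nX sm) hg hh he).self_of_nhds

/-! ### transport of sections -/

theorem transport (H : Pr X Z X' f f' A L L' t) {V : Set Z.pt} (hV : IsOpen V) (k : ℕ)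
    {σ : L'.ι → X'.pt → ℂ} (hσ : IsSecx X' (f' ⁻¹' V) (L'.pow k) σ) :
    ∃ τ : L.ι → X.pt → ℂ, IsSecx X (f ⁻¹' V) (L.pow k) τ ∧
      ∀ x x' i j, f x ∈ V → f x ∉ A → f' x' = f x → x ∈ L.U i → x' ∈ L'.U j →
        τ i x * t i j (f x) ^ k = σ j x' := by
  choose jj hjj using H.lb'.cover
  set s' := H.sm'.sec with hs'
  -- the section outside of `A`
  let τ₀ : L.ι → X.pt → ℂ := fun i x => σ (jj (s' (f x))) (s' (f x)) / t i (jj (s' (f x))) (f x) ^ k
  have hτ₀ : ∀ x i j, f x ∈ V → f x ∉ A → x ∈ L.U i → s' (f x) ∈ L'.U j →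
      τ₀ i x = σ j (s' (f x)) / t i j (f x) ^ k := by
    intro x i j hxV hxA hi hj
    have e1 : f' (s' (f x)) = f x := H.sm'.sec_eq _
    have h1 := H.iso.change x (s' (f x)) i i j (jj (s' (f x))) hxA e1 hi hi hj (hjj _)
    have h2 : σ (jj (s' (f x))) (s' (f x)) = L'.g (jj (s' (f x))) j (s' (f x)) ^ k *
        σ j (s' (f x)) := hσ.change _ _ _ (by rw [mem_preimage, e1]; exact hxV) (hjj _) hj
    rw [g_self H.lb hi, one_mul] at h1
    have n1 := (H.iso.holo x (s' (f x)) i j hxA e1 hi hj).2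
    have n2 := H.lb'.ne_zero (jj (s' (f x))) j (s' (f x)) (hjj _) hj
    show σ (jj (s' (f x))) (s' (f x)) / t i (jj (s' (f x))) (f x) ^ k = _
    rw [h1, h2, mul_pow]
    have n3 := pow_ne_zero k n1
    have n4 := pow_ne_zero k n2
    field_simp
  have hhol : ∀ i x, f x ∈ V → f x ∉ A → x ∈ L.U i → X.Hol (τ₀ i) x := by
    intro i x hxV hxA hi
    set j := jj (s' (f x)) with hj
    have e1 : f' (s' (f x)) = f x := H.sm'.sec_eq _
    have h1 : X.Hol (fun y => σ j (s' (f y)) / t i j (f y) ^ k) x := by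
      have h2 := H.iso.holo x (s' (f x)) i j hxA e1 hi (hjj _)
      refine hol_div ?_ (hol_pow (H.sm.holo x _ h2.1) k) (pow_ne_zero k h2.2)
      have h3 : X'.Hol (σ j) (s' (f x)) :=
        hσ.holo j _ (by rw [mem_preimage, e1]; exact hxV) (hjj _)
      exact H.sm.holo x _ ((H.sm'.holMap_sec hxA).2 (σ j) h3)
    refine hol_congr h1 ?_
    have h3 : ContinuousAt (fun y => s' (f y)) x :=
      ContinuousAt.comp (f := f) (g := s') (H.sm'.holMap_sec hxA).1 H.sm.cont.continuousAt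
    filter_upwards [H.sm.cont.continuousAt.eventually_mem (hV.mem_nhds hxV),
      H.sm.cont.continuousAt.eventually_mem (H.sm.isClosed.isOpen_compl.mem_nhds hxA),
      (H.lb.isOpen i).eventually_mem hi, h3.eventually_mem ((H.lb'.isOpen j).mem_nhds (hjj _))]
      with y h4 h5 h6 h7
    exact hτ₀ y i j h4 h5 h6 h7
  have hVo : IsOpen (f ⁻¹' V) := hV.preimage H.sm.cont
  choose τ hτ hτ' using fun i => ext_fun H.nX H.sm (hVo.inter (H.lb.isOpen i))
    (h := τ₀ i) (fun x hx hxA => hhol i x hx.1 hxA hx.2)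
  have key : ∀ x x' i j, f x ∈ V → f x ∉ A → f' x' = f x → x ∈ L.U i → x' ∈ L'.U j →
      τ i x * t i j (f x) ^ k = σ j x' := by
    intro x x' i j hxV hxA hx' hi hj
    have e1 : s' (f x) = x' := by rw [← hx']; exact H.sm'.sec_apply (by rw [hx']; exact hxA)
    have h1 := hτ₀ x i j hxV hxA hi (by rw [e1]; exact hj)
    rw [hτ' i x ⟨hxV, hi⟩ hxA, h1, e1, div_mul_cancel₀]
    exact pow_ne_zero k (H.iso.holo x x' i j hxA hx' hi hj).2
  refine ⟨τ, ⟨fun i x hx hi => hτ i x ⟨hx, hi⟩, fun i j x hx hi hj => ?_⟩, key⟩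
  refine eq_of_off H.nX H.sm (hτ i x ⟨hx, hi⟩)
    (hol_mul (hol_pow (H.lb.holo i j x hi hj) k) (hτ j x ⟨hx, hj⟩)) ?_
  filter_upwards [hVo.eventually_mem hx, (H.lb.isOpen i).eventually_mem hi,
    (H.lb.isOpen j).eventually_mem hj] with y hy hyi hyj hyA
  have e1 : f' (s' (f y)) = f y := H.sm'.sec_eq _
  have h1 := key y (s' (f y)) i (jj (s' (f y))) hy hyA e1 hyi (hjj _)
  have h2 := key y (s' (f y)) j (jj (s' (f y))) hy hyA e1 hyj (hjj _)
  have h3 := H.iso.change y (s' (f y)) i j (jj (s' (f y))) (jj (s' (f y))) hyA e1 hyi hyj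
    (hjj _) (hjj _)
  rw [g_self H.lb' (hjj _), mul_one] at h3
  have n1 := (H.iso.holo y (s' (f y)) i (jj (s' (f y))) hyA e1 hyi (hjj _)).2
  rw [h3, mul_pow, ← h1] at h2
  have n2 := pow_ne_zero k n1
  have h4 : τ j y * L.g i j y ^ k = τ i y := by
    refine mul_right_cancel₀ n2 ?_
    rw [← h2]; ring
  show τ i y = L.g i j y ^ k * τ j y
  rw [← h4, mul_comm]

/-- The product of sections of `L^k` and `L^{-k}` is a function on `Z`. -/
theorem pair_push (nX : IsNormal 4 X) (nZ : IsNormal 4 Z) (sm : IsSmall X Z f A)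
    (lb : IsLBx X L) {V : Set Z.pt} (hV : IsOpen V) {k : ℕ} {a b : L.ι → X.pt → ℂ}
    (ha : IsSecx X (f ⁻¹' V) (L.pow k) a) (hb : IsSecx X (f ⁻¹' V) ((Bd.inv L).pow k) b) :
    ∃ g : Z.pt → ℂ, (∀ z ∈ V, Z.Hol g z) ∧
      ∀ x i, f x ∈ V → x ∈ L.U i → a i x * b i x = g (f x) := by
  choose ii hii using lb.cover
  have hind : ∀ x i j, f x ∈ V → x ∈ L.U i → x ∈ L.U j → a i x * b i x = a j x * b j x := by
    intro x i j hx hi hj
    have h1 : a i x = L.g i j x ^ k * a j x := ha.change i j x hx hi hj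
    have h2 : b i x = (L.g i j x)⁻¹ ^ k * b j x := hb.change i j x hx hi hj
    have n1 := pow_ne_zero k (lb.ne_zero i j x hi hj)
    rw [h1, h2, inv_pow]
    field_simp
  obtain ⟨g, hg, hg'⟩ := push nX nZ sm hV (h := fun x => a (ii x) x * b (ii x) x) (by
    intro x hx
    refine hol_congr (hol_mul (ha.holo (ii x) x hx (hii x)) (hb.holo (ii x) x hx (hii x))) ?_
    have h2 : ∀ᶠ y in 𝓝 x, f y ∈ V := sm.cont.continuousAt.eventually_mem (hV.mem_nhds hx)
    filter_upwards [h2, (lb.isOpen (ii x)).eventually_mem (hii x)] with y hy hyi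
    exact hind y _ _ hy (hii y) hyi)
  refine ⟨g, hg, fun x i hx hi => ?_⟩
  rw [← hg' x hx]
  exact hind x i _ hx hi (hii x)

end Vale.Agent.P277.H619
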