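import Vale.Agent.P277.H619.D1

/-!
# P277, package D: the points of `Z` over which the flip is not an isomorphism
-/

open scoped Manifold ContDiff Topology
open Vale.Agent.P272.K Vale.Agent.P285.H281.FD Set Filter

noncomputable section

namespace Vale.Agent.P277.H619

open Vale.Agent.P277

/-- A family of sections of `P` over `f⁻¹ V` which generates `P` and separates the points of the
fibres of `f`. -/
structure VA (X Z : CSp) (f : X.pt → Z.pt) (V : Set Z.pt) (P : Bd X.pt) {κ : Type}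
    (s : κ → P.ι → X.pt → ℂ) : Prop where
  sec : ∀ l, IsSecx X (f ⁻¹' V) P (s l)
  gen : ∀ x i, f x ∈ V → x ∈ P.U i → ∃ l, s l i x ≠ 0
  sep : ∀ x x' i j, f x ∈ V → f x' = f x → x' ≠ x → x ∈ P.U i → x' ∈ P.U j →
    ∃ l m, s l i x * s m j x' ≠ s m i x * s l j x'

variable {X Z X' : CSp} {f : X.pt → Z.pt} {f' : X'.pt → Z.pt} {A : Set Z.pt} {L : Bd X.pt}
  {L' : Bd X'.pt} {t : L.ι → L'.ι → Z.pt → ℂ} {V : Set Z.pt} {κ : Type}

theorem VA.mono {P : Bd X.pt} {s : κ → P.ι → X.pt → ℂ} (h : VA X Z f V P s) {V' : Set Z.pt}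
    (hV : V' ⊆ V) : VA X Z f V' P s where
  sec l := secx_mono (preimage_mono hV) (h.sec l)
  gen x i hx := h.gen x i (hV hx)
  sep x x' i j hx := h.sep x x' i j (hV hx)

theorem secx_inv_inv {k : ℕ} {W : Set X.pt} {s : L.ι → X.pt → ℂ} :
    IsSecx X W ((Bd.inv (Bd.inv L)).pow k) s ↔ IsSecx X W (L.pow k) s := by
  constructor
  · intro h
    refine ⟨h.holo, fun i j x hx hi hj => ?_⟩
    have h1 : s i x = ((L.g i j x)⁻¹)⁻¹ ^ k * s j x := h.change i j x hx hi hj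
    rw [inv_inv] at h1
    exact h1
  · intro h
    refine ⟨h.holo, fun i j x hx hi hj => ?_⟩
    have h1 : s i x = L.g i j x ^ k * s j x := h.change i j x hx hi hj
    show s i x = ((L.g i j x)⁻¹)⁻¹ ^ k * s j x
    rw [inv_inv]
    exact h1

theorem va_inv_inv {k : ℕ} {s : κ → L.ι → X.pt → ℂ} (h : VA X Z f V (L.pow k) s) :
    VA X Z f V ((Bd.inv (Bd.inv L)).pow k) s where
  sec l := secx_inv_inv.2 (h.sec l)
  gen := h.gen
  sep := h.sep

/-- Powers of a separating family. -/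
theorem VA.pow {k : ℕ} {s : κ → L.ι → X.pt → ℂ} (h : VA X Z f V (L.pow k) s) {m : ℕ}
    (hm : 1 ≤ m) : VA X Z f V (L.pow (k * m))
      (fun (p : κ × κ) (i : L.ι) x => s p.1 i x ^ (m - 1) * s p.2 i x) where
  sec p :=
    { holo := fun i x hx hi => hol_mul (hol_pow ((h.sec p.1).holo i x hx hi) _)
        ((h.sec p.2).holo i x hx hi)
      change := fun i j x hx hi hj => by
        have h1 : s p.1 i x = L.g i j x ^ k * s p.1 j x := (h.sec p.1).change i j x hx hi hj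
        have h2 : s p.2 i x = L.g i j x ^ k * s p.2 j x := (h.sec p.2).change i j x hx hi hj
        show s p.1 i x ^ (m - 1) * s p.2 i x =
          L.g i j x ^ (k * m) * (s p.1 j x ^ (m - 1) * s p.2 j x)
        obtain ⟨n, rfl⟩ : ∃ n, m = n + 1 := ⟨m - 1, by omega⟩
        rw [h1, h2, Nat.add_sub_cancel, mul_pow, ← pow_mul, mul_add, pow_add, mul_one]
        ring }
  gen x i hx hi := by
    obtain ⟨l, hl⟩ := h.gen x i hx hi
    exact ⟨(l, l), mul_ne_zero (pow_ne_zero _ hl) hl⟩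
  sep x x' i j hx hx' hne hi hj := by
    obtain ⟨n, rfl⟩ : ∃ n, m = n + 1 := ⟨m - 1, by omega⟩
    simp only [Nat.add_sub_cancel]
    obtain ⟨l₀, hl₀⟩ := h.gen x i hx hi
    by_cases h0 : s l₀ j x' = 0
    · obtain ⟨l₁, hl₁⟩ := h.gen x' j (hx'.symm ▸ hx) hj
      refine ⟨(l₀, l₀), (l₁, l₁), ?_⟩
      simp only [h0, mul_zero]
      exact mul_ne_zero (mul_ne_zero (pow_ne_zero _ hl₀) hl₀) (mul_ne_zero (pow_ne_zero _ hl₁) hl₁)
    · by_contra hcon
      push Not at hcon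
      obtain ⟨l, m, hlm⟩ := h.sep x x' i j hx hx' hne hi hj
      have key : ∀ m, s l₀ i x * s m j x' = s m i x * s l₀ j x' := by
        intro m
        have h1 := hcon (l₀, l₀) (l₀, m)
        simp only at h1
        have n1 : s l₀ i x ^ n * s l₀ j x' ^ n ≠ 0 :=
          mul_ne_zero (pow_ne_zero _ hl₀) (pow_ne_zero _ h0)
        refine mul_left_cancel₀ n1 ?_
        linear_combination h1
      have h1 := key l
      have h2 := key m
      refine hlm ?_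
      have n1 : s l₀ i x * s l₀ j x' ≠ 0 := mul_ne_zero hl₀ h0
      refine mul_left_cancel₀ n1 ?_
      linear_combination s l₀ j x' * s l i x * h2 - s l₀ j x' * s m i x * h1

/-- Every section of `L^k` vanishes on the fibres with at least two points, if `L^{-k}` has a
separating family. -/
theorem vanish (nX : IsNormal 4 X) (nZ : IsNormal 4 Z) (sm : IsSmall X Z f A) (lb : IsLBx X L)
    (hV : IsOpen V) {k : ℕ} {s : κ → L.ι → X.pt → ℂ} (hs : VA X Z f V ((Bd.inv L).pow k) s)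
    {τ : L.ι → X.pt → ℂ} (hτ : IsSecx X (f ⁻¹' V) (L.pow k) τ) {x x₁ : X.pt} (hx : f x ∈ V)
    (hx₁ : f x₁ = f x) (hne : x₁ ≠ x) {i : L.ι} (hi : x ∈ L.U i) : τ i x = 0 := by
  by_contra h0
  obtain ⟨j, hj⟩ := lb.cover x₁
  have key : ∀ m, τ i x * s m i x = τ j x₁ * s m j x₁ := by
    intro m
    obtain ⟨g, -, hg⟩ := pair_push nX nZ sm lb hV hτ (hs.sec m)
    rw [hg x i hx hi, hg x₁ j (by rw [hx₁]; exact hx) hj, hx₁]
  obtain ⟨m₀, hm₀⟩ := hs.gen x i hx hi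
  have h1 : τ j x₁ ≠ 0 := by
    intro h
    have h2 := key m₀
    rw [h, zero_mul] at h2
    exact mul_ne_zero h0 hm₀ h2
  obtain ⟨l, m, hlm⟩ := hs.sep x x₁ i j hx hx₁ hne hi hj
  refine hlm ?_
  refine mul_left_cancel₀ (mul_ne_zero h0 h1) ?_
  have hl := key l
  have hm := key m
  linear_combination τ j x₁ * s m j x₁ * hl - τ j x₁ * s l j x₁ * hm

/-- shrinking `V` so that a section has no zeros -/
theorem exists_nz_nhds {k : ℕ} (hc : Continuous f) (hL : IsLBx X L) (hV : IsOpen V)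
    {σ : L.ι → X.pt → ℂ} (hσ : IsSecx X (f ⁻¹' V) (L.pow k) σ) {z : Z.pt} (hz : z ∈ V)
    (hn : ∀ x, f x = z → ∀ i, x ∈ L.U i → σ i x ≠ 0) :
    ∃ V₁ : Set Z.pt, IsOpen V₁ ∧ z ∈ V₁ ∧ V₁ ⊆ V ∧
      ∀ i, ∀ x ∈ f ⁻¹' V₁, x ∈ L.U i → σ i x ≠ 0 := by
  set U : Set X.pt := {x | f x ∈ V ∧ ∃ i, x ∈ L.U i ∧ σ i x ≠ 0} with hU
  have hUo : IsOpen U := by
    rw [isOpen_iff_eventually]
    rintro x ⟨hx, i, hi, h0⟩
    filter_upwards [hc.continuousAt.eventually_mem (hV.mem_nhds hx), (hL.isOpen i).eventually_mem hi,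
      (hol_continuousAt (hσ.holo i x hx hi)).eventually_ne h0] with y h1 h2 h3
    exact ⟨h1, i, h2, h3⟩
  obtain ⟨V₁, hV₁, hzV₁, hsub⟩ := exists_nhds_preimage_subset hc (z := z) hUo (by
    intro x hx
    obtain ⟨i, hi⟩ := hL.cover x
    have hx' : f x = z := hx
    exact ⟨by rw [hx']; exact hz, i, hi, hn x hx i hi⟩)
  refine ⟨V₁ ∩ V, hV₁.inter hV, ⟨hzV₁, hz⟩, inter_subset_right, ?_⟩
  rintro i x ⟨hx1, hx2⟩ hi h0
  obtain ⟨-, j, hj, h1⟩ := hsub hx1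
  have h2 : σ j x = L.g j i x ^ k * σ i x := hσ.change j i x hx2 hj hi
  rw [h0, mul_zero] at h2
  exact h1 h2

/-- The transport of a section without zeros on the fibre has no zeros on the fibre. -/
theorem transport_nz (H : Pr X Z X' f f' A L L' t) (hV : IsOpen V) {k : ℕ}
    {σ : L'.ι → X'.pt → ℂ} (hσ : IsSecx X' (f' ⁻¹' V) (L'.pow k) σ) {τ : L.ι → X.pt → ℂ}
    (hτ : IsSecx X (f ⁻¹' V) (L.pow k) τ)
    (hc : ∀ x x' i j, f x ∈ V → f x ∉ A → f' x' = f x → x ∈ L.U i → x' ∈ L'.U j →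
      τ i x * t i j (f x) ^ k = σ j x') {z : Z.pt} (hz : z ∈ V)
    (hn : ∀ x', f' x' = z → ∀ j, x' ∈ L'.U j → σ j x' ≠ 0) {x : X.pt} (hx : f x = z) {i : L.ι}
    (hi : x ∈ L.U i) : τ i x ≠ 0 := by
  obtain ⟨V₁, hV₁, hzV₁, hV₁V, hn₁⟩ := exists_nz_nhds H.sm'.cont H.lb' hV hσ hz hn
  obtain ⟨τ', hτ', hc'⟩ := transport H.dual hV₁ k
    (secx_inv (secx_mono (preimage_mono hV₁V) hσ) hn₁)
  have hxV : f x ∈ V₁ := by rw [hx]; exact hzV₁
  have h1 : τ i x * τ' i x = 1 := by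
    refine eq_of_off H.nX H.sm (h := fun _ => 1) (g := fun y => τ i y * τ' i y)
      (hol_mul (hτ.holo i x (hV₁V hxV) hi) (hτ'.holo i x hxV hi)) (hol_const 1 x) ?_
    filter_upwards [H.sm.cont.continuousAt.eventually_mem (hV₁.mem_nhds hxV),
      (H.lb.isOpen i).eventually_mem hi] with y hy hyi hyA
    obtain ⟨j, hj⟩ := H.lb'.cover (H.sm'.sec (f y))
    have e1 : f' (H.sm'.sec (f y)) = f y := H.sm'.sec_eq _
    have h2 := hc y _ i j (hV₁V hy) hyA e1 hyi hj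
    have h3 := hc' y _ i j hy hyA e1 hyi hj
    have n1 := (H.iso.holo y _ i j hyA e1 hyi hj).2
    have n2 : σ j (H.sm'.sec (f y)) ≠ 0 := hn₁ j _ (by rw [mem_preimage, e1]; exact hy) hj
    have n3 := pow_ne_zero k n1
    simp only [inv_pow] at h3
    rw [mul_inv_eq_iff_eq_mul₀ n3] at h3
    show τ i y * τ' i y = 1
    rw [h3, ← h2]
    rw [← h2] at n2
    have n4 := left_ne_zero_of_mul n2
    field_simp
  intro h0
  rw [h0, zero_mul] at h1
  exact zero_ne_one h1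

theorem amin_sub (H : Pr X Z X' f f' A L L' t) (hV : IsOpen V) {k : ℕ} {κ' : Type}
    {s : κ → L.ι → X.pt → ℂ} (hs : VA X Z f V ((Bd.inv L).pow k) s)
    {σ : κ' → L'.ι → X'.pt → ℂ} (hσ : VA X' Z f' V (L'.pow k) σ) {z : Z.pt} (hz : z ∈ V)
    (hA : z ∈ Amin f) : z ∈ Amin f' := by
  by_contra hcon
  obtain ⟨x, x₁, hx, hx₁, hne⟩ := hA
  obtain ⟨x', hx'⟩ := H.sm'.surj z
  have huniq : ∀ y, f' y = z → y = x' := by
    intro y hy
    by_contra hyx
    exact hcon ⟨y, x', hy, hx', hyx⟩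
  obtain ⟨j, hj⟩ := H.lb'.cover x'
  obtain ⟨l, hl⟩ := hσ.gen x' j (by rw [hx']; exact hz) hj
  obtain ⟨τ, hτ, hc⟩ := transport H hV k (hσ.sec l)
  obtain ⟨i, hi⟩ := H.lb.cover x
  have h1 : τ i x ≠ 0 := by
    refine transport_nz H hV (hσ.sec l) hτ hc hz ?_ hx hi
    intro y hy j' hj' h0
    rw [huniq y hy] at hj' h0
    have h2 : σ l j x' = L'.g j j' x' ^ k * σ l j' x' :=
      (hσ.sec l).change j j' x' (by rw [mem_preimage, hx']; exact hz) hj hj'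
    rw [h0, mul_zero] at h2
    exact hl h2
  exact h1 (vanish H.nX H.nZ H.sm H.lb hV hs hτ (by rw [hx]; exact hz) (hx₁.trans hx.symm)
    (Ne.symm hne) hi)

theorem amin_iff (H : Pr X Z X' f f' A L L' t) (hV : IsOpen V) {k : ℕ} {κ' : Type}
    {s : κ → L.ι → X.pt → ℂ} (hs : VA X Z f V ((Bd.inv L).pow k) s)
    {σ : κ' → L'.ι → X'.pt → ℂ} (hσ : VA X' Z f' V (L'.pow k) σ) {z : Z.pt} (hz : z ∈ V) :
    z ∈ Amin f ↔ z ∈ Amin f' :=
  ⟨amin_sub H hV hs hσ hz, amin_sub H.symm.dual hV (va_inv_inv hσ) hs hz⟩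

theorem amin_subset (sm : IsSmall X Z f A) : Amin f ⊆ A := by
  rintro z ⟨x, x₁, hx, hx₁, hne⟩
  by_contra hz
  exact hne (sm.inj x₁ x (by rw [hx₁]; exact hz) (by rw [hx, hx₁]))

/-- over a point with at least two preimages every section of a bundle with a separating family
has a zero -/
theorem exists_zero (nX : IsNormal 4 X) (nZ : IsNormal 4 Z) (sm : IsSmall X Z f A)
    (lb : IsLBx X L) (hV : IsOpen V) {k : ℕ} {s : κ → L.ι → X.pt → ℂ}
    (hs : VA X Z f V (L.pow k) s) {σ : L.ι → X.pt → ℂ}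
    (hσ : IsSecx X (f ⁻¹' V) (L.pow k) σ) {z : Z.pt} (hz : z ∈ V) (hA : z ∈ Amin f) :
    ∃ x i, f x = z ∧ x ∈ L.U i ∧ σ i x = 0 := by
  by_contra hcon
  push Not at hcon
  obtain ⟨V₁, hV₁, hzV₁, hV₁V, hn₁⟩ := exists_nz_nhds sm.cont lb hV hσ hz
    (fun x hx i hi => hcon x i hx hi)
  obtain ⟨x, x₁, hx, hx₁, hne⟩ := hA
  obtain ⟨i, hi⟩ := lb.cover x
  have h1 := vanish (L := Bd.inv L) nX nZ sm (lb_inv lb) hV₁ (va_inv_inv (hs.mono hV₁V))
    (secx_inv (secx_mono (preimage_mono hV₁V) hσ) hn₁) (x := x) (x₁ := x₁)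
    (by rw [hx]; exact hzV₁) (hx₁.trans hx.symm) (Ne.symm hne) (i := i) hi
  exact inv_ne_zero (hcon x i hx hi) h1

end Vale.Agent.P277.H619
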