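import Vale.Agent.P277.H619.D0
import Vale.Agent.P277.H619.Jet
import Vale.Agent.P277.H73.Final
import Vale.Agent.P277.F.Top

/-!
# P277, package D4: choice of the sections of `L^k`, assembly of (D)
-/

open scoped Manifold ContDiff Topology
open Vale.Agent.P272.K Vale.Agent.P285.H281.FD Set Filter

noncomputable section

namespace Vale.Agent.P277.H619

open Vale.Agent.P277

/-- `1` and the coordinates -/
def hf {T : Type} {N : ℕ} (ψ : Fin N → T → ℂ) : Option (Fin N) → T → ℂ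
  | none => fun _ => 1
  | some b => ψ b

theorem hf_hol {Z : CSp} {V : Set Z.pt} {N : ℕ} {ψ : Fin N → Z.pt → ℂ} (hψ : IsCoord Z V ψ)
    (a : Option (Fin N)) {z : Z.pt} (hz : z ∈ V) : Z.Hol (hf ψ a) z := by
  cases a with
  | none => exact hol_const 1 z
  | some b => exact hψ.hol b z hz

/-- the products of `1` and the coordinates with a family of sections -/
def fam {X Z : CSp} {L : Bd X.pt} {N : ℕ} (f : X.pt → Z.pt) (ψ : Fin N → Z.pt → ℂ) {κ : Type}
    (σ : κ → L.ι → X.pt → ℂ) (p : Option (Fin N) × κ) : L.ι → X.pt → ℂ :=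
  fun i x => hf ψ p.1 (f x) * σ p.2 i x

theorem secx_fam {X Z : CSp} {L : Bd X.pt} {N : ℕ} {f : X.pt → Z.pt} {ψ : Fin N → Z.pt → ℂ}
    {κ : Type} {σ : κ → L.ι → X.pt → ℂ} {V : Set Z.pt} (hψ : IsCoord Z V ψ)
    (hf' : ∀ x g, Z.Hol g (f x) → X.Hol (g ∘ f) x) {k : ℕ}
    (hσ : ∀ l, IsSecx X (f ⁻¹' V) (L.pow k) (σ l)) (p : Option (Fin N) × κ) :
    IsSecx X (f ⁻¹' V) (L.pow k) (fam (L := L) f ψ σ p) where
  holo i x hx hi := hol_mul (hf' x _ (hf_hol hψ p.1 hx)) ((hσ p.2).holo i x hx hi)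
  change i j x hx hi hj := by
    have h1 : σ p.2 i x = L.g i j x ^ k * σ p.2 j x := (hσ p.2).change i j x hx hi hj
    show hf ψ p.1 (f x) * σ p.2 i x = L.g i j x ^ k * (hf ψ p.1 (f x) * σ p.2 j x)
    rw [h1]; ring

theorem secx_lin {X : CSp} {P : Bd X.pt} {W : Set X.pt} {M : ℕ} {u : Fin M → P.ι → X.pt → ℂ}
    (hu : ∀ m, IsSecx X W P (u m)) (w : Fin M → ℂ) : IsSecx X W P (lin w u) where
  holo i x hx hi := hol_sum _ fun m _ => hol_mul (hol_const _ x) ((hu m).holo i x hx hi)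
  change i j x hx hi hj := by
    simp only [lin, Finset.mul_sum]
    refine Finset.sum_congr rfl fun m _ => ?_
    rw [(hu m).change i j x hx hi hj]
    ring

section jets

variable {Y : Type} [TopologicalSpace Y] [ChartedSpace (Cm 4) Y] {X Z : CSp} {O : Set Y}
  {v : Y → X.pt} {y : Y} {e : Chart 4 Y} {L : Bd X.pt}

/-- the jets of the products of coordinates and sections span -/
theorem fam_span (hv : IsOpenEmb X O v) {f : X.pt → Z.pt} {A : Set Z.pt}
    (sm : IsSmall X Z f A) {V : Set Z.pt} {N : ℕ} {ψ : Fin N → Z.pt → ℂ} (hψ : IsCoord Z V ψ)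
    {κ : Type} {τ : κ → L.ι → X.pt → ℂ} {k : ℕ} (hτ : ∀ l, IsSecx X (f ⁻¹' V) (L.pow k) (τ l))
    (hy : y ∈ O) (he : At e y) (hV : f (v y) ∈ V) (hA : f (v y) ∉ A) {i : L.ι}
    (hi : v y ∈ L.U i) (hnz : ∃ l, τ l i (v y) ≠ 0) :
    Submodule.span ℂ (range fun p => dfr v e y (fam (L := L) f ψ τ p i)) = ⊤ := by
  obtain ⟨l, hl⟩ := hnz
  rw [eq_top_iff, ← coord_span hv sm hψ hy he hV hA, Submodule.span_le]
  rintro _ ⟨b, rfl⟩
  have hτl : X.Hol (τ l i) (v y) := (hτ l).holo i _ hV hi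
  have hψb : X.Hol (fun x => ψ b (f x)) (v y) := sm.holo _ _ (hψ.hol b _ hV)
  have h1 : dfr v e y (fam (L := L) f ψ τ (some b, l) i) =
      ψ b (f (v y)) • dfr v e y (τ l i) + τ l i (v y) • dfr v e y (fun x => ψ b (f x)) :=
    dfr_mul hv hy he hψb hτl
  have h2 : dfr v e y (fam (L := L) f ψ τ (none, l) i) = dfr v e y (τ l i) := by
    have : fam (L := L) f ψ τ (none, l) i = τ l i := by
      funext x
      simp [fam, hf]
    rw [this]
  have h3 : dfr v e y (fun x => ψ b (f x)) = (τ l i (v y))⁻¹ •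
      (dfr v e y (fam (L := L) f ψ τ (some b, l) i) -
        ψ b (f (v y)) • dfr v e y (fam (L := L) f ψ τ (none, l) i)) := by
    rw [h1, h2, add_sub_cancel_left, smul_smul, inv_mul_cancel₀ hl, one_smul]
  show dfr v e y (fun x => ψ b (f x)) ∈ Submodule.span ℂ _
  rw [h3]
  exact Submodule.smul_mem _ _ (Submodule.sub_mem _ (Submodule.subset_span ⟨_, rfl⟩)
    (Submodule.smul_mem _ _ (Submodule.subset_span ⟨_, rfl⟩)))

theorem finrank_dual4 : Module.finrank ℂ (Cm 4 →L[ℂ] ℂ) = 4 := by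
  have h1 : Module.finrank ℂ (Cm 4 →ₗ[ℂ] ℂ) = 4 := by
    rw [Module.finrank_linearMap, Module.finrank_self, mul_one]
    simp
  exact ((LinearMap.toContinuousLinearMap (𝕜 := ℂ) (E := Cm 4) (F' := ℂ)).symm.finrank_eq).trans h1

/-- a span of fewer than four covectors is not everything -/
theorem span_ne_top {n : ℕ} (hn : n < 4) (a : Fin n → (Cm 4 →L[ℂ] ℂ)) :
    Submodule.span ℂ (range a) ≠ ⊤ := by
  intro h
  have h1 := finrank_range_le_card (R := ℂ) a
  have h2 : Set.finrank ℂ (range a) = 4 := by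
    rw [Set.finrank, h, finrank_top, finrank_dual4]
  rw [h2, Fintype.card_fin] at h1
  omega

end jets

/-- Choice of two generic linear combinations: without common zeros on a set of dimension one, and
with independent differentials at countably many points. `u` is the family on `X` and `u'` the one
on `X'`. -/
theorem exists_generic {Y : Type} [TopologicalSpace Y] [ChartedSpace (Cm 4) Y] {X X' : CSp}
    {O : Set Y} {v : Y → X.pt} (hv : IsOpenEmb X O v) {L : Bd X.pt} {L' : Bd X'.pt}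
    (lb' : IsLBx X' L') {M : ℕ} {u : Fin M → L.ι → X.pt → ℂ} {u' : Fin M → L'.ι → X'.pt → ℂ}
    {W : Set X'.pt} (hW : IsOpen W) (hu' : ∀ m, IsSecx X' W L' (u' m)) {S : Set X'.pt}
    (hSW : S ⊆ W) (hS : DimLe X' 1 S)
    (hbp : ∀ x ∈ W, ∀ j, x ∈ L'.U j → ∃ m, u' m j x ≠ 0) (hSne : S.Nonempty) {i₀ : L.ι} {D : ℕ → Y}
    {e : ℕ → Chart 4 Y} (he : ∀ n, At (e n) (D n)) (hD : ∀ n, D n ∈ O)
    (hu : ∀ n m, X.Hol (u m i₀) (v (D n)))
    (hsp : ∀ n, Submodule.span ℂ (range fun m => dfr v (e n) (D n) (u m i₀)) = ⊤) :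
    ∃ w w' : Fin M → ℂ, (S ∩ Zs L' (lin w u')).Countable ∧
      S ∩ Zs L' (lin w u') ∩ Zs L' (lin w' u') = ∅ ∧
      ∀ n, LinearIndependent ℂ
        ![dfr v (e n) (D n) (lin w u i₀), dfr v (e n) (D n) (lin w' u i₀)] := by
  obtain ⟨x₁, hx₁⟩ := hSne
  have hM : M ≠ 0 := by
    rintro rfl
    obtain ⟨j, hj⟩ := lb'.cover x₁
    obtain ⟨m, -⟩ := hbp x₁ (hSW hx₁) j hj
    exact m.elim0
  obtain ⟨H₁, hH₁, hc₁⟩ := H73.stC1_final X' L' lb' W hW M hM u' hu' 0 S hSW hS x₁
    (fun x hx _ => by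
      obtain ⟨j, hj⟩ := lb'.cover x
      obtain ⟨m, hm⟩ := hbp x (hSW hx) j hj
      exact ⟨m, j, hj, hm⟩)
  have hlin : ∀ (w : Fin M → ℂ) n, dfr v (e n) (D n) (lin w u i₀) =
      Fintype.linearCombination ℂ (fun m => dfr v (e n) (D n) (u m i₀)) w := by
    intro w n
    rw [Fintype.linearCombination_apply]
    exact dfr_sum hv (hD n) (he n) w fun m => hu n m
  have hbot : (⊥ : Submodule ℂ (Cm 4 →L[ℂ] ℂ)) ≠ ⊤ := by
    have h := span_ne_top (n := 0) (by norm_num) (fun i => i.elim0)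
    rwa [Set.range_eq_empty, Submodule.span_empty] at h
  obtain ⟨w, hw₁, hw₂⟩ := avoid₂ H₁
    (fun n : ℕ => (⊥ : Submodule ℂ (Cm 4 →L[ℂ] ℂ)).comap
      (Fintype.linearCombination ℂ fun m => dfr v (e n) (D n) (u m i₀))) hH₁
    (fun n => comap_ne_top (hsp n) hbot)
  have hcount : (S ∩ Zs L' (lin w u')).Countable := H73.countable_of_dimLe_zero (hc₁ w hw₁)
  have hne : ∀ n, dfr v (e n) (D n) (lin w u i₀) ≠ 0 := by
    intro n h
    refine hw₂ n ?_
    rw [Submodule.mem_comap, ← hlin, h]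
    exact Submodule.zero_mem _
  have : Countable (S ∩ Zs L' (lin w u') : Set X'.pt) := hcount.to_subtype
  choose jj hjj using lb'.cover
  obtain ⟨w', hw₃, hw₄⟩ := avoid₂
    (fun c : (S ∩ Zs L' (lin w u') : Set X'.pt) => (⊥ : Submodule ℂ ℂ).comap
      (Fintype.linearCombination ℂ fun m => u' m (jj c) c))
    (fun n : ℕ => (Submodule.span ℂ {dfr v (e n) (D n) (lin w u i₀)}).comap
      (Fintype.linearCombination ℂ fun m => dfr v (e n) (D n) (u m i₀)))
    (by
      intro c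
      refine comap_ne_top ?_ bot_ne_top
      obtain ⟨m, hm⟩ := hbp c (hSW c.2.1) (jj c) (hjj c)
      rw [eq_top_iff]
      intro z _
      have h1 : z = (z / u' m (jj c) c) • u' m (jj c) c := by
        rw [smul_eq_mul, div_mul_cancel₀ _ hm]
      rw [h1]
      exact Submodule.smul_mem _ _ (Submodule.subset_span ⟨m, rfl⟩))
    (by
      intro n
      refine comap_ne_top (hsp n) ?_
      have := span_ne_top (n := 1) (by norm_num) (fun _ => dfr v (e n) (D n) (lin w u i₀))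
      rwa [range_const] at this)
  refine ⟨w, w', hcount, ?_, fun n => ?_⟩
  · rw [eq_empty_iff_forall_notMem]
    rintro x ⟨hx, j, hj, h0⟩
    refine hw₃ ⟨x, hx⟩ ?_
    rw [Submodule.mem_comap, Submodule.mem_bot, Fintype.linearCombination_apply]
    have h1 : lin w' u' (jj x) x = 0 := by
      rw [(secx_lin hu' w').change (jj x) j x (hSW hx.1) (hjj x) hj, h0, mul_zero]
    simpa [lin] using h1
  · rw [LinearIndependent.pair_iff' (hne n)]
    intro a ha
    refine hw₄ n ?_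
    rw [Submodule.mem_comap, ← hlin, ← ha]
    exact Submodule.smul_mem _ _ (Submodule.mem_span_singleton_self _)

end Vale.Agent.P277.H619
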