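import Vale.Agent.P277.H619.Wdg

/-!
# P277: the pairing of forms
-/

set_option maxSynthPendingDepth 3

open scoped ContDiff Topology Manifold
open ContinuousAlternatingMap Vale.Agent.P267.H928.Int Vale.Agent.P267.H175
open Vale.Agent.P272.K Vale.Agent.P277.H60 MeasureTheory

noncomputable section

namespace Vale.Agent.P277.H619

open Vale.Agent.P277

section flat

variable {E : Type} [NormedAddCommGroup E] [NormedSpace ℝ E]
variable {p q : ℕ}

theorem contDiffAt_wdg {n : WithTop ℕ∞} {α : E → E [⋀^Fin p]→L[ℝ] ℝ} {β : E → E [⋀^Fin q]→L[ℝ] ℝ}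
    {x : E} (hα : ContDiffAt ℝ n α x) (hβ : ContDiffAt ℝ n β x) :
    ContDiffAt ℝ n (fun y => wdg (α y) (β y)) x := by
  have h1 : ContDiffAt ℝ n (fun y => wdgL E p q (α y)) x :=
    (wdgL E p q).contDiff.contDiffAt.comp x hα
  exact h1.clm_apply hβ

theorem extDeriv_wdg [FiniteDimensional ℝ E] {α : E → E [⋀^Fin p]→L[ℝ] ℝ} {β : E → E [⋀^Fin q]→L[ℝ] ℝ} {x : E}
    (hα : DifferentiableAt ℝ α x) (hβ : DifferentiableAt ℝ β x) (h0 : extDeriv β x = 0) :
    extDeriv (fun y => wdg (α y) (β y)) x = wdg (extDeriv α x) (β x) := by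
  have hc : HasFDerivAt (fun y => wdgL E p q (α y)) ((wdgL E p q) ∘L (fderiv ℝ α x)) x :=
    (wdgL E p q).hasFDerivAt.comp x hα.hasFDerivAt
  have h1 := hc.clm_apply hβ.hasFDerivAt
  have h2 : fderiv ℝ (fun y => wdg (α y) (β y)) x =
      (wdgL E p q (α x)) ∘L (fderiv ℝ β x) + ((wdgL E p q) ∘L (fderiv ℝ α x)).flip (β x) := h1.fderiv
  rw [extDeriv, h2, alternatizeUncurryFin_add, alt_wdg_zero _ h0, zero_add]
  exact (wdg_alt (fderiv ℝ α x) (β x) _ fun v => rfl).symm

end flat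

section mfd

variable {M : Type} [TopologicalSpace M] [ChartedSpace (Cm 4) M] [IsManifold 𝓘(ℂ, Cm 4) ω M]

theorem pull_eq_loc {k : ℕ} {e : OpenPartialHomeomorph M (Cm 4)} (he : e ∈ atlas (Cm 4) M)
    (a : Fm k M) {z : Cm 4} (hz : z ∈ e.target) :
    pull e.symm (show Form (Cm 4) ℝ k M from a) z = loc e a z := by
  have h1 : MDifferentiableAt 𝓘(ℝ, Cm 4) 𝓘(ℝ, Cm 4) e.symm z := mdiffAt_symm he hz
  have h2 : mfd e.symm z = fderiv ℝ (fun y => chartAt (Cm 4) (e.symm z) (e.symm y)) z := by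
    have h3 := h1.mfderiv
    simp only [writtenInExtChartAt, extChartAt, mfld_simps, fderivWithin_univ] at h3
    exact h3
  rw [pull_eq, h2]
  rfl

theorem cForm_of_sm {k : ℕ} {a : Fm k M} (ha : ∀ y, SmAt a y) :
    CForm 1 (show Form (Cm 4) ℝ k M from a) := by
  intro e he z hz
  have h1 : ContDiffAt ℝ ∞ (loc e a) z := by
    have hx : e.symm z ∈ e.source := e.map_target hz
    have := (smAt_iff he hx).1 (ha (e.symm z))
    rwa [e.right_inv hz] at this
  refine ContDiffWithinAt.congr_of_eventuallyEq ((h1.of_le (by simp)).contDiffWithinAt) ?_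
    (pull_eq_loc he a hz)
  filter_upwards [self_mem_nhdsWithin] with y hy
  exact pull_eq_loc he a hy

omit [IsManifold 𝓘(ℂ, Cm 4) ω M] in
theorem loc_wdg {p q : ℕ} (e : OpenPartialHomeomorph M (Cm 4)) (a : Fm p M) (b : Fm q M) :
    loc e (fun y => wdg (a y) (b y)) = fun z => wdg (loc e a z) (loc e b z) := by
  funext z
  exact wdg_comp _ (b (e.symm z)) p (a (e.symm z))

omit [IsManifold 𝓘(ℂ, Cm 4) ω M] in
theorem smAt_wdg {p q : ℕ} {a : Fm p M} {b : Fm q M} {y : M} (ha : SmAt a y) (hb : SmAt b y) :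
    SmAt (fun y => wdg (a y) (b y)) y := by
  rw [SmAt, loc_wdg]
  exact contDiffAt_wdg ha hb

theorem isExt_wdg {p q : ℕ} {a : Fm p M} {b : Fm q M} (ha : ∀ y, SmAt a y) (hb : ∀ y, SmAt b y)
    (hb0 : ∀ y, dF b y = 0) :
    IsExt (show Form (Cm 4) ℝ (q + p) M from fun y => wdg (a y) (b y))
      (show Form (Cm 4) ℝ (q + p + 1) M from fun y => wdg (dF a y) (b y)) := by
  intro e he z hz
  have hx : e.symm z ∈ e.source := e.map_target hz
  have e1 : e (e.symm z) = z := e.right_inv hz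
  have h1 : pull e.symm (show Form (Cm 4) ℝ (q + p) M from fun y => wdg (a y) (b y)) =ᶠ[𝓝 z]
      fun z => wdg (loc e a z) (loc e b z) := by
    filter_upwards [e.open_target.mem_nhds hz] with w hw
    rw [pull_eq_loc he _ hw, loc_wdg]
  have ha1 : ContDiffAt ℝ ∞ (loc e a) z := by
    have := (smAt_iff he hx).1 (ha (e.symm z)); rwa [e1] at this
  have hb1 : ContDiffAt ℝ ∞ (loc e b) z := by
    have := (smAt_iff he hx).1 (hb (e.symm z)); rwa [e1] at this
  have h2 : extDeriv (loc e b) z = 0 := by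
    have h3 := loc_dF he hz (hb _)
    rw [← h3, loc, hb0]; rfl
  rw [h1.extDeriv_eq, extDeriv_wdg (ha1.differentiableAt (by simp)) (hb1.differentiableAt (by simp))
    h2, pull_eq_loc he _ hz]
  have h4 := loc_dF he hz (ha _)
  have h5 : loc e (fun y => wdg (dF a y) (b y)) z = wdg (loc e (dF a) z) (loc e b z) :=
    congrFun (loc_wdg e (dF a) b) z
  rw [← h4]
  exact h5.symm

end mfd

end Vale.Agent.P277.H619
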