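import Vale.Agent.P277.H19.FinalTF
import Vale.Agent.P277.H19.StFp
import Vale.Agent.P277.H615.R.P7R
import Vale.Agent.P277.H615.R.FlipD

/-!
# P277: flips starting with a smooth compact Kähler fourfold and an NQC divisor which is nef on it
-/

open scoped Manifold ContDiff Topology
open Vale.Agent.P272.K Vale.Agent.P285.H281.FD Vale.Agent.P267.H175 Set Filter

noncomputable section

namespace Vale.Agent.P277.H619

open Vale.Agent.P277 Vale.Agent.P277.T2 H615

/-- the trivial line bundle -/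
def trivB (X : Type) : Bd X where
  ι := Unit
  U _ := univ
  g _ _ _ := 1

theorem hol_c (X : CSp) (c : ℂ) (x : X.pt) : X.Hol (fun _ => c) x := by
  obtain ⟨N, k, V, Ω, h, φ, hx, hm⟩ := X.model x
  exact (hm.hol x hx _).2 ⟨fun _ => c, analyticAt_const, Eventually.of_forall fun _ => rfl⟩

theorem relAmple_id (X : CSp) : RelAmple X X id (trivB X.pt) := by
  intro z
  refine ⟨univ, 1, 0, fun _ _ _ => 1, isOpen_univ, mem_univ _, le_rfl, fun l => ?_,
    fun x i _ _ => ⟨0, one_ne_zero⟩, fun x x' i j _ h1 h2 => absurd h1 h2,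
    fun x i l _ _ _ h hh => ?_⟩
  · exact ⟨fun _ x _ _ => hol_c X 1 x, fun _ _ _ _ _ _ => by simp [trivB, Bd.pow]⟩
  · refine ⟨1, fun _ => h, fun q => q.1 0, fun _ => hh, ?_, Eventually.of_forall fun y => rfl⟩
    have h1 : AnalyticAt ℂ (fun z : Cm 1 => z 0) (fun _ : Fin 1 => h x) :=
      (ContinuousLinearMap.proj (R := ℂ) (φ := fun _ : Fin 1 => ℂ) 0).analyticAt _
    exact AnalyticAt.fun_comp (g := fun z : Cm 1 => z 0) (f := fun q : Cm 1 × Cm 1 => q.1) h1
      analyticAt_fst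

section

variable {Y : Type} [TopologicalSpace Y] [ChartedSpace (Cm 4) Y]

theorem isRes_id {X : CSp} [Nonempty X.pt] {v : Y → X.pt} (hv : IsOpenEmb X univ v)
    (hs : Function.Surjective v) (G : Fin 0 → Set Y) :
    T2.IsRes (W := X) (X := X) v id (trivB X.pt) G where
  emb := hv
  surj := hs
  cont := continuous_id
  holo _ _ h := h
  psurj := Function.surjective_id
  closed l := l.elim0
  conn l := l.elim0
  hyp l := l.elim0
  emb' := by
    have : (⋃ l, G l)ᶜ = univ := by simp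
    rw [this]
    exact hv
  inj _ _ _ h := h
  an := by
    intro x _
    refine ⟨1, fun _ _ => 1, fun _ => hol_c X 1 x, Eventually.of_forall fun y => ?_⟩
    simp
  dim := by
    have : (fun y => id (v y)) '' ⋃ l, G l = ∅ := by simp
    rw [this]
    exact dimLe_empty
  lb := ⟨fun _ => isOpen_univ, fun _ => ⟨(), trivial⟩, fun _ _ x _ _ => hol_c X 1 x,
    fun _ _ _ _ _ => one_ne_zero, fun _ _ _ _ _ _ _ => by simp [trivB]⟩
  ample := relAmple_id X
  eff z := ⟨univ, fun _ _ => 1, isOpen_univ, trivial,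
    ⟨fun _ x _ _ => hol_c X 1 x, fun _ _ _ _ _ _ => by simp [trivB, Bd.inv]⟩,
    fun _ _ _ _ _ => one_ne_zero⟩

theorem isCmpV_id {X : CSp} {k : ℕ} {v : Y → X.pt} {L : Fin k → Bd X.pt} {N : Fin k → Bd Y}
    {t : ∀ e, (L e).ι → (N e).ι → Y → ℂ} (h : ∀ e, IsIsoY univ v (L e) (N e) (t e))
    (hl : ∀ y : Y, ∃ ch : Chart 4 Y, At ch y) (G : Fin 0 → Set Y) (n : Fin k → Fin 0 → ℤ) :
    IsCmpV (fun y => id (v y)) L N G n t where
  div y := by
    refine ⟨fun l => l.elim0, fun l => l.elim0, fun e i j hi hj => ⟨t e i j, ?_, fun ch hch => ?_,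
      Eventually.of_forall fun y' _ => by simp⟩⟩
    · obtain ⟨ch, hch⟩ := hl y
      exact ((h e).holo y (mem_univ _) i j ch hch hi hj).2
    · exact ((h e).holo y (mem_univ _) i j ch hch hi hj).1
  change y e i i₁ j j₁ _ h1 h2 h3 h4 := (h e).change y (mem_univ _) i i₁ j j₁ h1 h2 h3 h4

end

/-- The number of flips in a sequence of flips which starts with a smooth space `Y` and an NQC
divisor which is nef on `Y` is bounded by a number which depends only on `Y`. -/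
theorem smN (Y : Type) [TopologicalSpace Y] [T2Space Y] [CompactSpace Y]
    [ChartedSpace (Cm 4) Y] [IsManifold 𝓘(ℂ, Cm 4) ω Y]
    (χ : Chart 4 Y → Cm 4 → Matrix (Fin 4) (Fin 4) ℂ) (hχ : IsKahler χ) :
    ∃ b : ℕ, ∀ (k : ℕ) (M : Fin k → Bd Y) (m : Fin k → ℕ) (ρ : Fin k → ℝ) (N : ℕ)
      (X Z : ℕ → CSp) (v : Y → (X 0).pt) (f : ∀ j, (X j).pt → (Z j).pt)
      (f' : ∀ j, (X (j + 1)).pt → (Z j).pt) (A : ∀ j, Set (Z j).pt)
      (L : ∀ j, Fin k → Bd (X j).pt) (c : ℕ → Fin k → ℕ), (∀ e, IsLB 4 (M e)) →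
      (∀ e, Nef χ (M e)) → (∀ e, 1 ≤ m e) → (∀ e, 0 < ρ e) → ∑ e, ρ e * m e = 1 →
      IsOpenEmb (X 0) univ v → Function.Surjective v → (∀ j e, 1 ≤ c j e) →
      (∀ e, ∃ t, IsIsoY univ v (L 0 e) ((((Bd.can 4 Y).pow (m e)).mul (M e)).pow (c 0 e)) t) →
      (∀ j < N, IsFlipR (X j) (Z j) (X (j + 1)) (f j) (f' j) (A j) (L j) (L (j + 1)) (c j)
        (c (j + 1)) ρ) → N ≤ b := by
  obtain ⟨b, hb⟩ := H19.resR H19.stFp Y
  refine ⟨b, fun k M m ρ N X Z v f f' A L c hM hnef hm hρ hsum hv hs hc ht hflip => ?_⟩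
  rcases Nat.eq_zero_or_pos N with rfl | hN
  · exact Nat.zero_le _
  have hne : Nonempty (X 0).pt := by
    by_contra h
    rw [not_nonempty_iff] at h
    exact (hflip 0 hN).ninj fun a => (h.false a).elim
  have hl : ∀ y : Y, ∃ e : Chart 4 Y, At e y := fun y =>
    ⟨chartAt (Cm 4) y, chart_mem_atlas _ y, mem_chart_source _ y⟩
  choose t ht using ht
  have h7 := stP7R Y χ hχ k M hM hnef m hm ρ hρ hsum N (X 0) X Z (hflip 0 hN).normal 0 v id
    (trivB (X 0).pt) (fun l => l.elim0) (isRes_id hv hs _) f f' A L c hc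
    ⟨fun _ l => l.elim0, t, isCmpV_id ht hl _ _, fun l => l.elim0⟩ hflip
  rw [zero_mul, Nat.le_zero, Set.ncard_eq_zero ((Set.finite_lt_nat N).subset fun i hi => hi.1)]
    at h7
  have hD : ∀ j, j < N → ∃ (L₁ : Bd (X j).pt) (L₂ : Bd (X (j + 1)).pt),
      IsFlip (X j) (Z j) (X (j + 1)) (f j) (f' j) (Amin (f j)) L₁ L₂ := by
    intro j hj
    obtain ⟨p, q, s, d, a, -, -, h1, -⟩ := exists_flipD (hflip j hj) (hc j)
    exact ⟨_, _, h1.flip none⟩
  have hB : ∀ j, Nonempty (Bd (X j).pt) := fun j => ⟨trivB _⟩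
  choose! L₁ L₂ hL using hD
  refine hb N X Z univ v f f' (fun j => Amin (f j)) L₁ L₂ hv ?_ hL fun j hj => ?_
  · rw [image_univ, hs.range_eq, compl_univ]
    exact dimLe_empty
  · obtain ⟨-, h9, -⟩ := H619.stD0 _ _ _ _ _ _ _ _ (hL j hj)
    have h8 : DimLe (X (j + 1)) 1 (f' j ⁻¹' Amin (f j)) := by
      by_contra h
      have : j ∈ {j | j < N ∧ ¬ DimLe (X (j + 1)) 1 (f' j ⁻¹' Amin (f j))} := ⟨hj, h⟩
      rw [h7] at this
      exact this
    refine h8.mono ?_
    rw [h9]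
    rintro x ⟨x', h1, h2⟩
    exact ⟨x, x', rfl, h1, fun h => h2 h.symm⟩

end Vale.Agent.P277.H619
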