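import Vale.Agent.P277.H619.D2

/-!
# P277, package D: statements of the parts D5 and D6
-/

open scoped Manifold ContDiff Topology
open Vale.Agent.P272.K Vale.Agent.P285.H281.FD Set Filter

noncomputable section

namespace Vale.Agent.P277.H619

open Vale.Agent.P277

/-- the differential at `e y` of the function `h` on `X` read in the chart `e` of `Y` -/
def dfr {Y T : Type} [TopologicalSpace Y] (v : Y → T) (e : Chart 4 Y) (y : Y) (h : T → ℂ) :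
    Cm 4 →L[ℂ] ℂ := fderiv ℂ (fun z => h (v (e.symm z))) (e y)

/-- (D5) two functions with independent differentials at a dense set of points: the set of common
zeros is not contained in a set of dimension one. -/
def StD5 : Prop :=
  ∀ (Y : Type) [TopologicalSpace Y] [T2Space Y] [CompactSpace Y] [ChartedSpace (Cm 4) Y]
    [IsManifold 𝓘(ℂ, Cm 4) ω Y] (X : CSp) (O : Set Y) (v : Y → X.pt) (_ : IsOpenEmb X O v)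
    (_ : Dense (v '' O)) (_ : DimLe X 1 (v '' O)ᶜ) (U : Set X.pt) (_ : IsOpen U) (x : X.pt)
    (_ : x ∈ U) (h₁ h₂ : X.pt → ℂ) (_ : ∀ y ∈ U, X.Hol h₁ y ∧ X.Hol h₂ y) (_ : h₁ x = 0)
    (_ : h₂ x = 0) (D : ℕ → Y) (e : ℕ → Chart 4 Y) (_ : ∀ n, At (e n) (D n))
    (_ : ∀ n, D n ∈ O ∧ v (D n) ∈ U)
    (_ : ∀ n, LinearIndependent ℂ ![dfr v (e n) (D n) h₁, dfr v (e n) (D n) h₂])
    (_ : ∀ W : Set X.pt, IsOpen W → W ⊆ U → W.Nonempty → ∃ n, v (D n) ∈ W),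
    ¬ {y | y ∈ U ∧ h₁ y = 0 ∧ h₂ y = 0} ⊆ (v '' O)ᶜ

/-- (D6) choice of the sections `s₁, s₂` of `L^{-k}`. -/
def StD6 : Prop :=
  ∀ (Y : Type) [TopologicalSpace Y] [T2Space Y] [CompactSpace Y] [ChartedSpace (Cm 4) Y]
    [IsManifold 𝓘(ℂ, Cm 4) ω Y] (X Z : CSp) (f : X.pt → Z.pt) (A : Set Z.pt) (L : Bd X.pt)
    (_ : IsNormal 4 X) (_ : IsNormal 4 Z) (_ : IsSmall X Z f A) (_ : IsLBx X L)
    (V : Set Z.pt) (_ : IsOpen V) (N : ℕ) (ψ : Fin N → Z.pt → ℂ) (_ : IsCoord Z V ψ)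
    (k : ℕ) (κ : Type) [Fintype κ] (s : κ → L.ι → X.pt → ℂ)
    (_ : VA X Z f V ((Bd.inv L).pow k) s)
    (O : Set Y) (v : Y → X.pt) (_ : IsOpenEmb X O v) (_ : DimLe X 1 (v '' O)ᶜ)
    (K : Set X.pt) (_ : K ⊆ f ⁻¹' V) (_ : DimLe X 2 K) (x₀ : X.pt) (_ : x₀ ∈ f ⁻¹' (V ∩ A))
    (_ : x₀ ∈ v '' O) (i₀ : L.ι) (_ : x₀ ∈ L.U i₀) (σ σ' : X.pt → ℂ)
    (D : ℕ → Y) (e : ℕ → Chart 4 Y) (_ : ∀ n, At (e n) (D n))
    (_ : ∀ n, D n ∈ O ∧ v (D n) ∈ L.U i₀ ∧ f (v (D n)) ∈ V ∧ f (v (D n)) ∉ A)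
    (_ : ∀ n, LinearIndependent ℂ ![dfr v (e n) (D n) σ, dfr v (e n) (D n) σ']),
    ∃ s₁ s₂ : L.ι → X.pt → ℂ, IsSecx X (f ⁻¹' V) ((Bd.inv L).pow k) s₁ ∧
      IsSecx X (f ⁻¹' V) ((Bd.inv L).pow k) s₂ ∧ s₁ i₀ x₀ = 0 ∧ s₂ i₀ x₀ = 0 ∧
      f ⁻¹' V ∩ Zs ((Bd.inv L).pow k) s₁ ∩ Zs ((Bd.inv L).pow k) s₂ ⊆ v '' O ∧
      (K ∩ (Zs ((Bd.inv L).pow k) s₁ ∩ Zs ((Bd.inv L).pow k) s₂)).Countable ∧
      ∀ n, Jac v ![s₁ i₀, s₂ i₀, σ, σ'] (e n) (e n (D n)) ≠ 0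

end Vale.Agent.P277.H619
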