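import Vale.Agent.P277.Stmts5
import Mathlib.Analysis.Calculus.InverseFunctionTheorem.FDeriv

/-!
# P277: surfaces in the regular locus
-/

open scoped Manifold ContDiff Topology
open Vale.Agent.P272.K Vale.Agent.P285.H281.FD Set Filter

noncomputable section

namespace Vale.Agent.P277.H619

open Vale.Agent.P277

/-- local injectivity -/
theorem inj_nhds {F : Cm 4 → Cm 4} {x : Cm 4} {D : Cm 4 →L[ℂ] Cm 4}
    (hF : HasStrictFDerivAt F D x) (hi : Function.Injective D) : ∃ U ∈ 𝓝 x, InjOn F U := by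
  let L : Cm 4 ≃L[ℂ] Cm 4 := (LinearEquiv.ofInjectiveEndo (D : Cm 4 →ₗ[ℂ] Cm 4) hi).toContinuousLinearEquiv
  have hL : (L : Cm 4 →L[ℂ] Cm 4) = D := by ext v; rfl
  have hF' : HasStrictFDerivAt F (L : Cm 4 →L[ℂ] Cm 4) x := by rw [hL]; exact hF
  refine ⟨(hF'.toOpenPartialHomeomorph F).source,
    (hF'.toOpenPartialHomeomorph F).open_source.mem_nhds hF'.mem_toOpenPartialHomeomorph_source, ?_⟩
  exact (hF'.toOpenPartialHomeomorph F).injOn

/-- The fixed point set of `ĝ ∘ û`, where `û ∘ ĝ = id`, is a submanifold. -/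
theorem surf_eq {g : Cm 2 → Cm 4} {u : Cm 4 → Cm 2} {z₀ : Cm 4} (hu : AnalyticAt ℂ u z₀)
    (hg : AnalyticAt ℂ g (u z₀)) (h0 : g (u z₀) = z₀) (hug : ∀ᶠ p in 𝓝 (u z₀), u (g p) = p) :
    ∃ f : Cm 4 → Cm 2, AnalyticAt ℂ f z₀ ∧ Function.Surjective (fderiv ℂ f z₀) ∧
      ∀ᶠ z in 𝓝 z₀, g (u z) = z ↔ f z = 0 := by
  have hg' : AnalyticAt ℂ (fun z => g (u z)) z₀ := AnalyticAt.fun_comp hg hu
  set Dg := fderiv ℂ g (u z₀) with hDg
  set Du := fderiv ℂ u z₀ with hDu
  have hgd : HasStrictFDerivAt g Dg (u z₀) := hg.hasStrictFDerivAt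
  have hud : HasStrictFDerivAt u Du z₀ := hu.hasStrictFDerivAt
  have h1 : Du.comp Dg = ContinuousLinearMap.id ℂ (Cm 2) := by
    have h2 : HasStrictFDerivAt (fun p => u (g p)) (Du.comp Dg) (u z₀) := by
      refine HasStrictFDerivAt.comp (u z₀) ?_ hgd
      rw [h0]; exact hud
    have h3 : HasFDerivAt (fun p : Cm 2 => p) (Du.comp Dg) (u z₀) :=
      h2.hasFDerivAt.congr_of_eventuallyEq (hug.mono fun p hp => hp.symm)
    exact h3.unique (hasFDerivAt_id _)
  set P : Cm 4 →L[ℂ] Cm 4 := Dg.comp Du with hP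
  have hPd : HasStrictFDerivAt (fun z => g (u z)) P z₀ := HasStrictFDerivAt.comp z₀ hgd hud
  have hDuP : ∀ v, Du (P v) = Du v := fun v => by
    have := congrArg (fun L : Cm 2 →L[ℂ] Cm 2 => L (Du v)) h1
    simpa [hP] using this
  -- the range of `1 - P` has dimension two
  set Q : Cm 4 →ₗ[ℂ] Cm 4 := LinearMap.id - (P : Cm 4 →ₗ[ℂ] Cm 4) with hQ
  have hQv : ∀ v, Q v = v - P v := fun v => rfl
  have hker : LinearMap.ker Q = LinearMap.range (Dg : Cm 2 →ₗ[ℂ] Cm 4) := by
    ext v
    rw [LinearMap.mem_ker, hQv, sub_eq_zero, LinearMap.mem_range]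
    constructor
    · intro h; exact ⟨Du v, h.symm⟩
    · rintro ⟨w, rfl⟩
      have := congrArg (fun L : Cm 2 →L[ℂ] Cm 2 => Dg (L w)) h1
      simpa [hP] using this.symm
  have hDginj : Function.Injective (Dg : Cm 2 →ₗ[ℂ] Cm 4) := by
    intro a b hab
    have h2 := congrArg (fun v => Du v) hab
    have h3 := congrArg (fun L : Cm 2 →L[ℂ] Cm 2 => L a) h1
    have h4 := congrArg (fun L : Cm 2 →L[ℂ] Cm 2 => L b) h1
    simp only [ContinuousLinearMap.comp_apply, ContinuousLinearMap.id_apply] at h3 h4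
    rw [← h3, ← h4]
    exact h2
  have hrk : Module.finrank ℂ (LinearMap.range Q) = 2 := by
    have h2 := LinearMap.finrank_range_add_finrank_ker Q
    rw [hker, LinearMap.finrank_range_of_inj hDginj] at h2
    simp at h2
    omega
  have e : LinearMap.range Q ≃ₗ[ℂ] Cm 2 := LinearEquiv.ofFinrankEq _ _ (by rw [hrk]; simp)
  obtain ⟨Λ, hΛ⟩ := LinearMap.exists_extend (e : LinearMap.range Q →ₗ[ℂ] Cm 2)
  have hΛQ : ∀ v, Λ (Q v) = e ⟨Q v, LinearMap.mem_range_self Q v⟩ := fun v => by
    have := congrArg (fun L : LinearMap.range Q →ₗ[ℂ] Cm 2 => L ⟨Q v, LinearMap.mem_range_self Q v⟩) hΛ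
    simpa using this
  let Λc : Cm 4 →L[ℂ] Cm 2 := LinearMap.toContinuousLinearMap Λ
  have hΛc : ∀ v, Λc v = Λ v := fun v => rfl
  have hfan : AnalyticAt ℂ (fun z => Λc (z - g (u z))) z₀ :=
    (Λc.analyticAt _).fun_comp (analyticAt_id.sub hg')
  have hfd : HasStrictFDerivAt (fun z => Λc (z - g (u z)))
      (Λc.comp (ContinuousLinearMap.id ℂ (Cm 4) - P)) z₀ :=
    Λc.hasStrictFDerivAt.comp z₀ ((hasStrictFDerivAt_id z₀).sub hPd)
  refine ⟨fun z => Λc (z - g (u z)), hfan, ?_, ?_⟩
  · rw [hfd.hasFDerivAt.fderiv]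
    intro w
    obtain ⟨⟨_, v, rfl⟩, hv⟩ := e.surjective w
    refine ⟨v, ?_⟩
    show Λ (v - P v) = w
    rw [← hQv, hΛQ, hv]
  · -- the map `(f, u)` is injective near `z₀`
    let Ψ : Cm 4 → Cm 4 := fun z => Fin.append (Λc (z - g (u z)) : Fin 2 → ℂ) (u z : Fin 2 → ℂ)
    let J : (Cm 2 × Cm 2) →ₗ[ℂ] Cm 4 :=
      { toFun := fun p => Fin.append (p.1 : Fin 2 → ℂ) (p.2 : Fin 2 → ℂ)
        map_add' := fun p q => by
          funext i
          refine Fin.addCases (m := 2) (n := 2) (fun i => ?_) (fun i => ?_) i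
          · simp only [Prod.fst_add, Pi.add_apply]
            rw [Fin.append_left, Fin.append_left, Fin.append_left]; rfl
          · simp only [Prod.snd_add, Pi.add_apply]
            rw [Fin.append_right, Fin.append_right, Fin.append_right]; rfl
        map_smul' := fun c p => by
          funext i
          refine Fin.addCases (m := 2) (n := 2) (fun i => ?_) (fun i => ?_) i
          · simp only [Prod.smul_fst, Pi.smul_apply, RingHom.id_apply]
            rw [Fin.append_left, Fin.append_left]; rfl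
          · simp only [Prod.smul_snd, Pi.smul_apply, RingHom.id_apply]
            rw [Fin.append_right, Fin.append_right]; rfl }
    have hJinj : Function.Injective J := by
      intro p q h
      ext i
      · have := congrFun h (Fin.castAdd 2 i)
        simpa [J, Fin.append_left] using this
      · have h1 := congrFun h (Fin.natAdd 2 i)
        have h2 : (Fin.append (p.1 : Fin 2 → ℂ) (p.2 : Fin 2 → ℂ)) (Fin.natAdd 2 i) =
          (Fin.append (q.1 : Fin 2 → ℂ) (q.2 : Fin 2 → ℂ)) (Fin.natAdd 2 i) := h1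
        rwa [Fin.append_right, Fin.append_right] at h2
    let Jc : (Cm 2 × Cm 2) →L[ℂ] Cm 4 := LinearMap.toContinuousLinearMap J
    have hΨ : HasStrictFDerivAt Ψ (Jc.comp ((Λc.comp (ContinuousLinearMap.id ℂ (Cm 4) - P)).prod Du))
        z₀ := Jc.hasStrictFDerivAt.comp z₀ (hfd.prodMk hud)
    obtain ⟨U, hU, hinj⟩ := inj_nhds hΨ (by
      intro v w hvw
      have h2 : J (Λ (v - P v), Du v) = J (Λ (w - P w), Du w) := hvw
      have h3 := hJinj h2
      have h4 : Λ (v - P v) = Λ (w - P w) := congrArg Prod.fst h3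
      have h5 : Du v = Du w := congrArg Prod.snd h3
      rw [← hQv, ← hQv, hΛQ, hΛQ] at h4
      have h6 := congrArg Subtype.val (e.injective h4)
      have h7 : v - P v = w - P w := h6
      have h8 : P v = P w := by simp only [hP, ContinuousLinearMap.comp_apply, h5]
      rw [h8] at h7
      exact sub_left_injective h7)
    have hcu : ContinuousAt u z₀ := hu.continuousAt
    have hcg : ContinuousAt (fun z => g (u z)) z₀ := hg'.continuousAt
    have h2 : ∀ᶠ z in 𝓝 z₀, g (u z) ∈ U := by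
      have : U ∈ 𝓝 ((fun z => g (u z)) z₀) := by simpa [h0] using hU
      exact hcg this
    filter_upwards [hU, h2, hcu.eventually hug] with z hz hz2 hz3
    constructor
    · intro h
      simp only [h, sub_self, map_zero]
    · intro h
      refine hinj hz2 hz ?_
      show Fin.append (Λc (g (u z) - g (u (g (u z)))) : Fin 2 → ℂ) (u (g (u z)) : Fin 2 → ℂ) =
        Fin.append (Λc (z - g (u z)) : Fin 2 → ℂ) (u z : Fin 2 → ℂ)
      rw [hz3, h, sub_self, map_zero]

theorem isSurfAt_of {X : CSp} {S : Set X.pt} {x : RegT X} (h : IsSurfX X S x.val) :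
    IsSurfAt (RegT.val ⁻¹' S) x := by
  classical
  obtain ⟨Ω, g, u, hΩ, hg, hxg, hu, hug, hS⟩ := h
  obtain ⟨p₀, hp₀, hgp₀⟩ := hxg
  have hu0 : u x.val = p₀ := by rw [← hgp₀, hug p₀ hp₀]
  set e : Chart 4 (RegT X) := chartAt (Cm 4) x with he'
  have he : At e x := ⟨chart_mem_atlas _ x, mem_chart_source _ x⟩
  have hv := RegT.isOpenEmb_val X
  -- analytic functions in the chart
  have hcont : ContinuousAt (fun z => (e.symm z).val) (e x) := by
    have h2 : ContinuousAt e.symm (e x) := e.continuousAt_symm (e.map_source he.2)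
    exact ContinuousAt.comp (g := RegT.val) RegT.continuous_val.continuousAt h2
  have hex : (e.symm (e x)).val = x.val := by rw [e.left_inv he.2]
  let uh : Cm 4 → Cm 2 := fun z => u (e.symm z).val
  have huh : AnalyticAt ℂ uh (e x) := by
    rw [analyticAt_pi_iff]
    intro i
    exact (hv.hol_iff (mem_univ x) he).1 (hu i).self_of_nhds
  let gh : Cm 2 → Cm 4 := fun p => e (hv.inv x (g p))
  have hgh : AnalyticAt ℂ gh p₀ := by
    rw [analyticAt_pi_iff]
    intro i
    have h1 : X.Hol (fun y => e (hv.inv x y) i) x.val := hv.hol_chart x (mem_univ x) he i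
    exact (hg p₀ hp₀).2 _ (by rw [hgp₀]; exact h1)
  have hinv : ∀ y : RegT X, hv.inv x y.val = y := fun y => hv.inv_apply x (mem_univ y)
  have huhx : uh (e x) = p₀ := by show u (e.symm (e x)).val = p₀; rw [hex, hu0]
  have hghx : gh (uh (e x)) = e x := by
    rw [huhx]; show e (hv.inv x (g p₀)) = e x; rw [hgp₀, hinv]
  -- `g p` is near `x` in the regular locus
  have hgc : ContinuousAt g p₀ := (hg p₀ hp₀).1
  have hreg : ∀ᶠ p in 𝓝 p₀, g p ∈ RegT.val '' e.source := by
    have h1 : RegT.val '' e.source ∈ 𝓝 (g p₀) := by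
      rw [hgp₀]
      exact (hv.isOpenMap _ (subset_univ _) e.open_source).mem_nhds ⟨x, he.2, rfl⟩
    exact hgc h1
  have hug' : ∀ᶠ p in 𝓝 (uh (e x)), uh (gh p) = p := by
    rw [huhx]
    filter_upwards [hreg, hΩ.mem_nhds hp₀] with p hp1 hp2
    obtain ⟨y, hy, hyg⟩ := hp1
    show u (e.symm (e (hv.inv x (g p)))).val = p
    rw [← hyg, hinv, e.left_inv hy, hyg, hug p hp2]
  obtain ⟨f, hf, hfs, hff⟩ := surf_eq huh (by rw [huhx]; exact hgh) hghx hug'
  refine ⟨e, he, fun z => f z 0, fun z => f z 1, ?_, ?_, ?_, ?_⟩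
  · exact (analyticAt_pi_iff.1 hf) 0
  · exact (analyticAt_pi_iff.1 hf) 1
  · have h1 : ∀ i, fderiv ℂ (fun z => f z i) (e x) =
        (ContinuousLinearMap.proj (R := ℂ) (φ := fun _ : Fin 2 => ℂ) i).comp (fderiv ℂ f (e x)) := by
      intro i
      exact (((ContinuousLinearMap.proj (R := ℂ) (φ := fun _ : Fin 2 => ℂ) i).hasFDerivAt).comp
        (e x) hf.differentiableAt.hasFDerivAt).fderiv
    rw [h1, h1, Fintype.linearIndependent_iff]
    intro c hc
    have h2 : ∀ w : Cm 2, c 0 * w 0 + c 1 * w 1 = 0 := by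
      intro w
      obtain ⟨v, rfl⟩ := hfs w
      have := congrArg (fun L : Cm 4 →L[ℂ] ℂ => L v) hc
      simpa [Fin.sum_univ_two] using this
    have h3 := h2 (Pi.single 0 1)
    have h4 := h2 (Pi.single 1 1)
    simp at h3 h4
    intro i
    fin_cases i
    · exact h3
    · exact h4
  · have h1 : ContinuousAt e x := e.continuousAt he.2
    have h2 : ContinuousAt RegT.val x := RegT.continuous_val.continuousAt
    have h3 : ContinuousAt (fun y : RegT X => u y.val) x := by
      rw [continuousAt_pi]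
      intro i
      exact ContinuousAt.comp (g := fun y => u y i) (hol_continuousAt (hu i).self_of_nhds) h2
    have h4 : ∀ᶠ y : RegT X in 𝓝 x, g (u y.val) ∈ RegT.val '' e.source := by
      have : Tendsto (fun y : RegT X => u y.val) (𝓝 x) (𝓝 p₀) := by
        have := h3.tendsto; rwa [hu0] at this
      exact this.eventually hreg
    have h5' : ∀ᶠ y : RegT X in 𝓝 x, u y.val ∈ Ω :=
      h3.eventually_mem (by show Ω ∈ 𝓝 (u x.val); rw [hu0]; exact hΩ.mem_nhds hp₀)
    filter_upwards [h1.eventually hff, h2.eventually hS, e.open_source.mem_nhds he.2, h4,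
      h5'] with y hy1 hy2 hy3 hy4 hy5
    show y.val ∈ S ↔ _
    rw [hy2]
    have h5 : (f (e y) 0 = 0 ∧ f (e y) 1 = 0) ↔ f (e y) = 0 := by
      constructor
      · rintro ⟨h, h'⟩
        funext i
        fin_cases i
        · exact h
        · exact h'
      · intro h; rw [h]; exact ⟨rfl, rfl⟩
    rw [h5, ← hy1]
    have h6 : uh (e y) = u y.val := by show u (e.symm (e y)).val = _; rw [e.left_inv hy3]
    rw [h6]
    show _ ↔ e (hv.inv x (g (u y.val))) = e y
    obtain ⟨w, hw, hwg⟩ := hy4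
    rw [← hwg, hinv]
    constructor
    · rintro ⟨-, h⟩
      rw [RegT.val_injective h]
    · intro h
      exact ⟨hy5, by rw [e.injOn hw hy3 h]⟩

end Vale.Agent.P277.H619
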