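import Vale.Agent.P277.Stmts5
import Vale.Agent.P277.H60.Wedge

/-!
# P277: the wedge product
-/

set_option maxSynthPendingDepth 3

open scoped ContDiff Topology
open ContinuousAlternatingMap Vale.Agent.P267.H928.Int Vale.Agent.P267.H175
open Vale.Agent.P272.K Vale.Agent.P277.H60

noncomputable section

namespace Vale.Agent.P277.H619

open Vale.Agent.P277

variable {E : Type} [NormedAddCommGroup E] [NormedSpace ℝ E]
variable {p q : ℕ}

theorem wdg_zero' (a : E [⋀^Fin 0]→L[ℝ] ℝ) (b : E [⋀^Fin q]→L[ℝ] ℝ) :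
    wdg a b = a Fin.elim0 • b := rfl

/-- `v ↦ (ι_v a) ∧ b` -/
def inn (a : E [⋀^Fin (p + 1)]→L[ℝ] ℝ) (b : E [⋀^Fin q]→L[ℝ] ℝ) :
    E →L[ℝ] (E [⋀^Fin (q + p)]→L[ℝ] ℝ) :=
  ((wdgL E p q).comp a.curryLeft).flip b

theorem inn_apply (a : E [⋀^Fin (p + 1)]→L[ℝ] ℝ) (b : E [⋀^Fin q]→L[ℝ] ℝ) (v : E) :
    inn a b v = wdg (a.curryLeft v) b := rfl

theorem wdg_succ (a : E [⋀^Fin (p + 1)]→L[ℝ] ℝ) (b : E [⋀^Fin q]→L[ℝ] ℝ) :
    wdg a b = ((p + 1 : ℝ)⁻¹) • alternatizeUncurryFin (inn a b) := rfl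

theorem wdg_add_left (a a' : E [⋀^Fin p]→L[ℝ] ℝ) (b : E [⋀^Fin q]→L[ℝ] ℝ) :
    wdg (a + a') b = wdg a b + wdg a' b := by
  simp only [wdg, map_add]; rfl

theorem wdg_add_right (a : E [⋀^Fin p]→L[ℝ] ℝ) (b b' : E [⋀^Fin q]→L[ℝ] ℝ) :
    wdg a (b + b') = wdg a b + wdg a b' := by
  simp only [wdg, map_add]

theorem wdg_smul_left (c : ℝ) (a : E [⋀^Fin p]→L[ℝ] ℝ) (b : E [⋀^Fin q]→L[ℝ] ℝ) :
    wdg (c • a) b = c • wdg a b := by
  simp only [wdg, map_smul]; rfl

theorem wdg_smul_right (c : ℝ) (a : E [⋀^Fin p]→L[ℝ] ℝ) (b : E [⋀^Fin q]→L[ℝ] ℝ) :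
    wdg a (c • b) = c • wdg a b := by
  simp only [wdg, map_smul]

@[simp] theorem wdg_zero_left (b : E [⋀^Fin q]→L[ℝ] ℝ) : wdg (0 : E [⋀^Fin p]→L[ℝ] ℝ) b = 0 := by
  simp only [wdg, _root_.map_zero, _root_.zero_apply]

@[simp] theorem wdg_zero_right (a : E [⋀^Fin p]→L[ℝ] ℝ) : wdg a (0 : E [⋀^Fin q]→L[ℝ] ℝ) = 0 := by
  simp only [wdg, _root_.map_zero]

theorem wdg_sub_left (a a' : E [⋀^Fin p]→L[ℝ] ℝ) (b : E [⋀^Fin q]→L[ℝ] ℝ) :
    wdg (a - a') b = wdg a b - wdg a' b := by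
  simp only [wdg, map_sub]; rfl

theorem wdg_neg_left (a : E [⋀^Fin p]→L[ℝ] ℝ) (b : E [⋀^Fin q]→L[ℝ] ℝ) :
    wdg (-a) b = - wdg a b := by
  simp only [wdg, map_neg]; rfl

theorem curryLeft_add' (a a' : E [⋀^Fin (p + 1)]→L[ℝ] ℝ) (v : E) :
    (a + a').curryLeft v = a.curryLeft v + a'.curryLeft v := by
  ext w; simp

/-- the interior product of `l ∧ a` -/
theorem curryLeft_wedge1 (l : E →L[ℝ] ℝ) (a : E [⋀^Fin (p + 1)]→L[ℝ] ℝ) (v : E) :
    (wedge1 l a).curryLeft v = l v • a - wedge1 l (a.curryLeft v) := by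
  ext w
  have h0 : (l v • a - wedge1 l (a.curryLeft v)) w =
      l v * a w + -∑ i : Fin (p + 1), (-1) ^ i.val • l (w i) • a.curryLeft v (i.removeNth w) := by
    rw [← sub_eq_add_neg, ← wedge1_apply]; rfl
  rw [h0, curryLeft_apply_apply, wedge1_apply, Fin.sum_univ_succ]
  simp only [Fin.val_zero, pow_zero, Matrix.cons_val_zero, one_smul, smul_eq_mul]
  congr 1
  rw [← Finset.sum_neg_distrib]
  refine Finset.sum_congr rfl fun i _ => ?_
  rw [curryLeft_apply_apply]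
  have h1 : (i.succ).removeNth (Matrix.vecCons v w) = Matrix.vecCons v (i.removeNth w) := by
    funext j
    refine Fin.cases ?_ (fun j => ?_) j
    · simp [Fin.removeNth]
    · simp [Fin.removeNth, Fin.succ_succAbove_succ]
  rw [h1]
  simp only [Fin.val_succ, pow_succ, Matrix.cons_val_succ]
  ring

theorem curryLeft_wedge1_zero (l : E →L[ℝ] ℝ) (a : E [⋀^Fin 0]→L[ℝ] ℝ) (v : E) :
    (wedge1 l a).curryLeft v = l v • a := by
  ext w
  rw [curryLeft_apply_apply, wedge1_apply, Fin.sum_univ_succ]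
  simp

theorem alt_smul_fun (l : E →L[ℝ] ℝ) (a : E [⋀^Fin p]→L[ℝ] ℝ) (f : E →L[ℝ] E [⋀^Fin p]→L[ℝ] ℝ)
    (hf : ∀ v, f v = l v • a) : alternatizeUncurryFin f = wedge1 l a := by
  rw [wedge1]; congr 1; ext v : 1; rw [hf]; rfl

/-- `(l ∧ a) ∧ b = l ∧ (a ∧ b)` -/
theorem wdg_wedge1 (l : E →L[ℝ] ℝ) (a : E [⋀^Fin p]→L[ℝ] ℝ) (b : E [⋀^Fin q]→L[ℝ] ℝ) :
    wdg (wedge1 l a) b = wedge1 l (wdg a b) := by
  induction p with
  | zero =>
    rw [wdg_succ, alt_smul_fun l (wdg a b)]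
    · simp
    · intro v
      rw [inn_apply, curryLeft_wedge1_zero, wdg_smul_left]
  | succ p ih =>
    have h1 : inn (wedge1 l a) b = l.smulRight (wdg a b) - (wedge1L (q + p) l) ∘L (inn a b) := by
      ext v : 1
      rw [inn_apply, curryLeft_wedge1, wdg_sub_left, wdg_smul_left, ih]
      rfl
    have h2 : alternatizeUncurryFin ((wedge1L (q + p) l) ∘L (inn a b)) =
        - wedge1 l (alternatizeUncurryFin (inn a b)) := alt_wedge1 l _ _ fun u => rfl
    have h3 : alternatizeUncurryFin (inn a b) = (p + 1 : ℝ) • wdg a b := by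
      rw [wdg_succ, smul_smul, mul_inv_cancel₀ (by positivity), one_smul]
    rw [wdg_succ, h1, sub_eq_add_neg, alternatizeUncurryFin_add, ← neg_one_smul ℝ (_ ∘L _),
      alternatizeUncurryFin_smul, h2, h3]
    have h4 : alternatizeUncurryFin (l.smulRight (wdg a b)) = wedge1 l (wdg a b) := rfl
    rw [h4, wedge1_smul_right]
    push_cast
    rw [neg_one_smul, neg_neg, ← one_smul ℝ (wedge1 l (wdg a b)), smul_smul, ← add_smul, smul_smul]
    rw [one_smul]
    have h5 : ((p : ℝ) + 1 + 1)⁻¹ * (1 + (p + 1) * 1) = 1 := by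
      have : (p : ℝ) + 1 + 1 ≠ 0 := by positivity
      field_simp
      ring
    rw [h5, one_smul]

/-! ### decomposable forms span -/

section span

variable [FiniteDimensional ℝ E]

/-- `alternatizeUncurryFin` as a sum over a basis -/
theorem alt_eq_sum (c : E →L[ℝ] E [⋀^Fin p]→L[ℝ] ℝ) {ι : Type} [Fintype ι] (B : Module.Basis ι ℝ E) :
    alternatizeUncurryFin c =
      ∑ i, wedge1 (LinearMap.toContinuousLinearMap (B.coord i)) (c (B i)) := by
  classical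
  have h1 : c = ∑ i, (LinearMap.toContinuousLinearMap (B.coord i)).smulRight (c (B i)) := by
    ext v : 1
    conv_lhs => rw [← B.sum_repr v, _root_.map_sum]
    rw [_root_.sum_apply]
    refine Finset.sum_congr rfl fun i _ => ?_
    rw [map_smul]; rfl
  conv_lhs => rw [h1]
  have h2 : ∀ s : Finset ι, alternatizeUncurryFin
      (∑ i ∈ s, (LinearMap.toContinuousLinearMap (B.coord i)).smulRight (c (B i))) =
      ∑ i ∈ s, wedge1 (LinearMap.toContinuousLinearMap (B.coord i)) (c (B i)) := by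
    intro s
    induction s using Finset.induction_on with
    | empty =>
      rw [Finset.sum_empty, Finset.sum_empty]
      exact (alternatizeUncurryFinCLM ℝ E ℝ).map_zero
    | insert i s hi ih =>
      rw [Finset.sum_insert hi, Finset.sum_insert hi, alternatizeUncurryFin_add, ih]; rfl
  exact h2 _

/-- Induction on forms. -/
theorem alt_induction {P : ∀ p : ℕ, (E [⋀^Fin p]→L[ℝ] ℝ) → Prop}
    (h0 : ∀ a, P 0 a) (hz : ∀ p, P p 0) (hadd : ∀ p a b, P p a → P p b → P p (a + b))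
    (hsmul : ∀ p (c : ℝ) a, P p a → P p (c • a))
    (hw : ∀ p (l : E →L[ℝ] ℝ) a, P p a → P (p + 1) (wedge1 l a)) :
    ∀ p a, P p a := by
  classical
  intro p
  induction p with
  | zero => exact h0
  | succ p ih =>
    intro a
    have h1 : a = ((p + 1 : ℝ)⁻¹) • alternatizeUncurryFin a.curryLeft := by
      rw [alternatizeUncurryFin_curryLeft, ← Nat.cast_smul_eq_nsmul ℝ, smul_smul]
      push_cast
      rw [inv_mul_cancel₀ (by positivity), one_smul]
    rw [h1, alt_eq_sum _ (Module.finBasis ℝ E)]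
    refine hsmul _ _ _ ?_
    have h2 : ∀ s : Finset (Fin (Module.finrank ℝ E)), P (p + 1)
        (∑ i ∈ s, wedge1 (LinearMap.toContinuousLinearMap ((Module.finBasis ℝ E).coord i))
          (a.curryLeft ((Module.finBasis ℝ E) i))) := by
      intro s
      induction s using Finset.induction_on with
      | empty => rw [Finset.sum_empty]; exact hz _
      | insert i s hi ih' =>
        rw [Finset.sum_insert hi]
        exact hadd _ _ _ (hw _ _ _ (ih _)) ih'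
    exact h2 _

/-- `(alt c) ∧ b = alt (v ↦ c v ∧ b)` -/
theorem wdg_alt (c : E →L[ℝ] E [⋀^Fin p]→L[ℝ] ℝ) (b : E [⋀^Fin q]→L[ℝ] ℝ)
    (f : E →L[ℝ] E [⋀^Fin (q + p)]→L[ℝ] ℝ) (hf : ∀ v, f v = wdg (c v) b) :
    wdg (alternatizeUncurryFin c) b = alternatizeUncurryFin f := by
  classical
  rw [alt_eq_sum c (Module.finBasis ℝ E), alt_eq_sum f (Module.finBasis ℝ E)]
  have h2 : ∀ s : Finset (Fin (Module.finrank ℝ E)), wdg
        (∑ i ∈ s, wedge1 (LinearMap.toContinuousLinearMap ((Module.finBasis ℝ E).coord i))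
          (c ((Module.finBasis ℝ E) i))) b =
        ∑ i ∈ s, wedge1 (LinearMap.toContinuousLinearMap ((Module.finBasis ℝ E).coord i))
          (f ((Module.finBasis ℝ E) i)) := by
    intro s
    induction s using Finset.induction_on with
    | empty => simp
    | insert i s hi ih' =>
      rw [Finset.sum_insert hi, Finset.sum_insert hi, wdg_add_left, ih', wdg_wedge1, hf]
  exact h2 _

/-- if `alt c = 0` then `alt (v ↦ a ∧ c v) = 0` -/
theorem alt_wdg_zero (c : E →L[ℝ] E [⋀^Fin q]→L[ℝ] ℝ) (hc : alternatizeUncurryFin c = 0) :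
    ∀ (p : ℕ) (a : E [⋀^Fin p]→L[ℝ] ℝ), alternatizeUncurryFin ((wdgL E p q a).comp c) = 0 := by
  refine alt_induction ?_ ?_ ?_ ?_ ?_
  · intro a
    have h1 : (wdgL E 0 q a).comp c = a Fin.elim0 • c := by ext v : 1; rfl
    rw [h1, alternatizeUncurryFin_smul, hc, smul_zero]
  · intro p
    have h1 : (wdgL E p q 0).comp c = 0 := by ext v : 1; simp
    rw [h1]
    exact (alternatizeUncurryFinCLM ℝ E ℝ).map_zero
  · intro p a b ha hb
    have h1 : (wdgL E p q (a + b)).comp c = (wdgL E p q a).comp c + (wdgL E p q b).comp c := by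
      ext v : 1; simp
    rw [h1, alternatizeUncurryFin_add, ha, hb, add_zero]
  · intro p r a ha
    have h1 : (wdgL E p q (r • a)).comp c = r • (wdgL E p q a).comp c := by
      ext v : 1; simp
    rw [h1, alternatizeUncurryFin_smul, ha, smul_zero]
  · intro p l a ha
    have h1 : ∀ v, ((wdgL E (p + 1) q (wedge1 l a)).comp c) v =
        wedge1 l (((wdgL E p q a).comp c) v) := fun v => wdg_wedge1 l a (c v)
    rw [alt_wedge1 l _ _ h1, ha, wedge1_zero_right, neg_zero]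

/-- naturality -/
theorem wdg_comp {E' : Type} [NormedAddCommGroup E'] [NormedSpace ℝ E'] (T : E' →L[ℝ] E)
    (b : E [⋀^Fin q]→L[ℝ] ℝ) : ∀ (p : ℕ) (a : E [⋀^Fin p]→L[ℝ] ℝ),
    (wdg a b).compContinuousLinearMap T =
      wdg (a.compContinuousLinearMap T) (b.compContinuousLinearMap T) := by
  refine alt_induction ?_ ?_ ?_ ?_ ?_
  · intro a
    rw [wdg_zero', wdg_zero']
    have h1 : (a.compContinuousLinearMap T) Fin.elim0 = a Fin.elim0 := by
      rw [compContinuousLinearMap_apply]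
      congr 1
      exact Subsingleton.elim _ _
    rw [h1]; rfl
  · intro p
    rw [wdg_zero_left]
    have h1 : (0 : E [⋀^Fin p]→L[ℝ] ℝ).compContinuousLinearMap T = 0 := rfl
    rw [h1, wdg_zero_left]; rfl
  · intro p a a' h h'
    have h1 : (a + a').compContinuousLinearMap T =
      a.compContinuousLinearMap T + a'.compContinuousLinearMap T := rfl
    rw [wdg_add_left, h1, wdg_add_left, ← h, ← h']; rfl
  · intro p r a h
    have h1 : (r • a).compContinuousLinearMap T = r • a.compContinuousLinearMap T := rfl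
    rw [wdg_smul_left, h1, wdg_smul_left, ← h]; rfl
  · intro p l a h
    rw [wdg_wedge1, wedge1_comp, h, wedge1_comp, wdg_wedge1]

omit [FiniteDimensional ℝ E] in
/-- moving a covector past four covectors -/
theorem wedge1_past4 (l m1 m2 m3 m4 : E →L[ℝ] ℝ) (x : E [⋀^Fin p]→L[ℝ] ℝ) :
    wedge1 l (wedge1 m1 (wedge1 m2 (wedge1 m3 (wedge1 m4 x)))) =
      wedge1 m1 (wedge1 m2 (wedge1 m3 (wedge1 m4 (wedge1 l x)))) := by
  rw [wedge1_comm l m1, wedge1_comm l m2, wedge1_comm l m3, wedge1_comm l m4]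
  simp only [wedge1_neg_right, neg_neg]

omit [FiniteDimensional ℝ E] in
/-- four wedge products -/
def W4 (l : Fin 4 → E →L[ℝ] ℝ) (x : E [⋀^Fin p]→L[ℝ] ℝ) : E [⋀^Fin (p + 1 + 1 + 1 + 1)]→L[ℝ] ℝ :=
  wedge1 (l 0) (wedge1 (l 1) (wedge1 (l 2) (wedge1 (l 3) x)))

omit [FiniteDimensional ℝ E] in
theorem W4_smul (l : Fin 4 → E →L[ℝ] ℝ) (c : ℝ) (x : E [⋀^Fin p]→L[ℝ] ℝ) :
    W4 l (c • x) = c • W4 l x := by
  unfold W4
  rw [wedge1_smul_right, wedge1_smul_right, wedge1_smul_right, wedge1_smul_right]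

omit [FiniteDimensional ℝ E] in
theorem wedge1_W4 (l : E →L[ℝ] ℝ) (m : Fin 4 → E →L[ℝ] ℝ) (x : E [⋀^Fin p]→L[ℝ] ℝ) :
    wedge1 l (W4 m x) = W4 m (wedge1 l x) := wedge1_past4 l _ _ _ _ x

omit [FiniteDimensional ℝ E] in
theorem W4_comm (l m : Fin 4 → E →L[ℝ] ℝ) (x : E [⋀^Fin p]→L[ℝ] ℝ) :
    W4 l (W4 m x) = W4 m (W4 l x) := by
  have h1 : W4 l (W4 m x) =
    wedge1 (l 0) (wedge1 (l 1) (wedge1 (l 2) (wedge1 (l 3) (W4 m x)))) := rfl
  rw [h1, wedge1_W4, wedge1_W4, wedge1_W4, wedge1_W4]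
  rfl

omit [FiniteDimensional ℝ E] in
theorem wdg_W4 (l : Fin 4 → E →L[ℝ] ℝ) (x : E [⋀^Fin p]→L[ℝ] ℝ) (y : E [⋀^Fin q]→L[ℝ] ℝ) :
    wdg (W4 l x) y = W4 l (wdg x y) := by
  unfold W4
  rw [wdg_wedge1, wdg_wedge1, wdg_wedge1, wdg_wedge1]

/-- the constant `1` -/
def one0 : E [⋀^Fin 0]→L[ℝ] ℝ := constOfIsEmpty ℝ E (Fin 0) (1 : ℝ)

omit [FiniteDimensional ℝ E] in
theorem eq_one0 (c : E [⋀^Fin 0]→L[ℝ] ℝ) : c = c Fin.elim0 • one0 := by
  ext v
  have : v = Fin.elim0 := Subsingleton.elim _ _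
  subst this
  simp [one0]

omit [FiniteDimensional ℝ E] in
theorem wdg_one0 (y : E [⋀^Fin q]→L[ℝ] ℝ) : wdg (one0 : E [⋀^Fin 0]→L[ℝ] ℝ) y = y := by
  rw [wdg_zero']
  have h3 : (one0 : E [⋀^Fin 0]→L[ℝ] ℝ) Fin.elim0 = 1 := rfl
  rw [h3, one_smul]

omit [FiniteDimensional ℝ E] in
theorem dec_comm (l m : Fin 4 → E →L[ℝ] ℝ) :
    wdg (W4 l one0) (W4 m (one0 : E [⋀^Fin 0]→L[ℝ] ℝ)) = wdg (W4 m one0) (W4 l one0) := by
  rw [wdg_W4, wdg_W4, wdg_one0, wdg_one0, W4_comm]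

/-- decomposable `4`-forms -/
def D4 : Set (E [⋀^Fin (0 + 1 + 1 + 1 + 1)]→L[ℝ] ℝ) := Set.range fun l => W4 l one0

theorem span_dec4 (a : E [⋀^Fin (0 + 1 + 1 + 1 + 1)]→L[ℝ] ℝ) :
    a ∈ Submodule.span ℝ (D4 (E := E)) := by
  let D : ∀ p : ℕ, Set (E [⋀^Fin p]→L[ℝ] ℝ) := fun p => Nat.rec (motive := fun p => Set (E [⋀^Fin p]→L[ℝ] ℝ))
    Set.univ (fun p s => {a | ∃ (l : E →L[ℝ] ℝ) (b : E [⋀^Fin p]→L[ℝ] ℝ), b ∈ s ∧ a = wedge1 l b}) p
  have key : ∀ p (a : E [⋀^Fin p]→L[ℝ] ℝ), a ∈ Submodule.span ℝ (D p) := by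
    refine alt_induction ?_ ?_ ?_ ?_ ?_
    · intro a; exact Submodule.subset_span (Set.mem_univ _)
    · intro p; exact Submodule.zero_mem _
    · intro p a b ha hb; exact Submodule.add_mem _ ha hb
    · intro p c a ha; exact Submodule.smul_mem _ c ha
    · intro p l a ha
      induction ha using Submodule.span_induction with
      | mem x hx => exact Submodule.subset_span ⟨l, x, hx, rfl⟩
      | zero => rw [wedge1_zero_right]; exact Submodule.zero_mem _
      | add x y _ _ hx hy => rw [wedge1_add_right]; exact Submodule.add_mem _ hx hy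
      | smul c x _ hx => rw [wedge1_smul_right]; exact Submodule.smul_mem _ c hx
  refine Submodule.span_le.2 ?_ (key _ a)
  rintro _ ⟨l1, _, ⟨l2, _, ⟨l3, _, ⟨l4, c, -, rfl⟩, rfl⟩, rfl⟩, rfl⟩
  have h1 : wedge1 l1 (wedge1 l2 (wedge1 l3 (wedge1 l4 c))) =
      c Fin.elim0 • W4 ![l1, l2, l3, l4] one0 := by
    rw [← W4_smul, ← eq_one0]; rfl
  rw [h1]
  exact Submodule.smul_mem _ _ (Submodule.subset_span ⟨_, rfl⟩)

theorem wdg_comm_aux (a b : E [⋀^Fin (0 + 1 + 1 + 1 + 1)]→L[ℝ] ℝ) : wdg a b = wdg b a := by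
  have h2 : ∀ b ∈ D4 (E := E), wdg a b = wdg b a := by
    rintro _ ⟨m, rfl⟩
    have ha := span_dec4 a
    induction ha using Submodule.span_induction with
    | mem x hx => obtain ⟨l, rfl⟩ := hx; exact dec_comm l m
    | zero => rw [wdg_zero_left, wdg_zero_right]
    | add x y _ _ hx hy => rw [wdg_add_left, wdg_add_right, hx, hy]
    | smul c x _ hx => rw [wdg_smul_left, wdg_smul_right, hx]
  have hb := span_dec4 b
  induction hb using Submodule.span_induction with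
  | mem x hx => exact h2 x hx
  | zero => rw [wdg_zero_left, wdg_zero_right]
  | add x y _ _ hx hy => rw [wdg_add_left, wdg_add_right, hx, hy]
  | smul c x _ hx => rw [wdg_smul_left, wdg_smul_right, hx]

theorem wdg_comm4 (a b : E [⋀^Fin 4]→L[ℝ] ℝ) : wdg a b = wdg b a := wdg_comm_aux a b

end span

theorem stWdg : StWdg :=
  ⟨fun _ b a => wdg_zero' a b, fun _ _ l a b => wdg_wedge1 l a b, wdg_comm4⟩

end Vale.Agent.P277.H619
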